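import Vale.Agent.P153.R2.FKGK.Core

/-!
# P153, R2, block FKGK: consequences of the master inequality

Comparison of the means for ordered data, positive association, conditioning on decreasing and
increasing events of the modulus, and the representation of the mean by the connection to the wired
sites.
-/

namespace Vale.Agent.P153.R2.K

open Finset Relation Vale.Agent.P153
open scoped Classical

variable {W : Type*} {R : W → W → Prop} {V : Finset W} {E E' : Dt W} {k : ℕ} {I : Finset W}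
  {φ : Fin k → W → ℝ}

/-- Data `E` conditioned on a decreasing weight `X`, against larger data conditioned on an
increasing weight `Y`. -/
theorem cond_le (hE : Dt.Le V E E') {X Y : (W → ℤ) → ℝ} (hX0 : ∀ a, 0 ≤ X a)
    (hY0 : ∀ a, 0 ≤ Y a) (hX : Antitone X) (hY : Monotone Y)
    {B : (W → ℤ) → ℝ} (hB0 : ∀ a, 0 ≤ B a) (hB : Monotone B) (hφ : ∀ i, ∀ x ∈ I, 0 ≤ φ i x) :
    (∑ h ∈ CF R V E, X (ab h) * (B (ab h) * pl I φ h)) * (∑ h ∈ CF R V E', Y (ab h)) ≤
      (∑ h ∈ CF R V E, X (ab h)) * ∑ h ∈ CF R V E', Y (ab h) * (B (ab h) * pl I φ h) :=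
  master hE hX0 hY0 (fun _ _ _ _ => mul_le_mul (hX inf_le_left) (hY le_sup_right) (hY0 _)
    (hX0 _)) hB0 hB hφ

/-- Comparison of the means for ordered data. -/
theorem ev_data_le (hE : Dt.Le V E E') (hn : (CF R V E).Nonempty) (hn' : (CF R V E').Nonempty)
    {B : (W → ℤ) → ℝ} (hB0 : ∀ a, 0 ≤ B a) (hB : Monotone B) (hφ : ∀ i, ∀ x ∈ I, 0 ≤ φ i x) :
    ev (CF R V E) (fun h => B (ab h) * pl I φ h) ≤
      ev (CF R V E') (fun h => B (ab h) * pl I φ h) := by
  have key := cond_le (R := R) hE (X := fun _ => 1) (Y := fun _ => 1) (fun _ => zero_le_one)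
    (fun _ => zero_le_one) (fun _ _ _ => le_rfl) (fun _ _ _ => le_rfl) hB0 hB hφ
  simp only [one_mul, Finset.sum_const, nsmul_eq_mul, mul_one] at key
  have c1 : (0 : ℝ) < #(CF R V E) := by exact_mod_cast hn.card_pos
  have c2 : (0 : ℝ) < #(CF R V E') := by exact_mod_cast hn'.card_pos
  unfold ev
  rw [div_le_div_iff₀ c1 c2]
  linarith

/-- Positive association. -/
theorem ev_assoc (hn : (CF R V E).Nonempty) {B Y : (W → ℤ) → ℝ} (hB0 : ∀ a, 0 ≤ B a)
    (hB : Monotone B) (hY0 : ∀ a, 0 ≤ Y a) (hY : Monotone Y) (hφ : ∀ i, ∀ x ∈ I, 0 ≤ φ i x) :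
    ev (CF R V E) (fun h => B (ab h) * pl I φ h) * ev (CF R V E) (fun h => Y (ab h)) ≤
      ev (CF R V E) (fun h => Y (ab h) * (B (ab h) * pl I φ h)) := by
  have key := cond_le (R := R) (V := V) (E := E) (E' := E) Dt.Le.rfl (X := fun _ => 1) (Y := Y)
    (fun _ => zero_le_one) hY0 (fun _ _ _ => le_rfl) hY hB0 hB hφ
  simp only [one_mul, Finset.sum_const, nsmul_eq_mul, mul_one] at key
  have c1 : (0 : ℝ) < #(CF R V E) := by exact_mod_cast hn.card_pos
  unfold ev
  rw [div_mul_div_comm, div_le_div_iff₀ (mul_pos c1 c1) c1]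
  nlinarith

/-- Negative correlation with decreasing weights. -/
theorem ev_assoc_anti (hn : (CF R V E).Nonempty) {B X : (W → ℤ) → ℝ} (hB0 : ∀ a, 0 ≤ B a)
    (hB : Monotone B) (hX0 : ∀ a, 0 ≤ X a) (hX : Antitone X) (hφ : ∀ i, ∀ x ∈ I, 0 ≤ φ i x) :
    ev (CF R V E) (fun h => X (ab h) * (B (ab h) * pl I φ h)) ≤
      ev (CF R V E) (fun h => X (ab h)) * ev (CF R V E) (fun h => B (ab h) * pl I φ h) := by
  have key := cond_le (R := R) (V := V) (E := E) (E' := E) Dt.Le.rfl (X := X) (Y := fun _ => 1)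
    hX0 (fun _ => zero_le_one) hX (fun _ _ _ => le_rfl) hB0 hB hφ
  simp only [one_mul, Finset.sum_const, nsmul_eq_mul, mul_one] at key
  have c1 : (0 : ℝ) < #(CF R V E) := by exact_mod_cast hn.card_pos
  unfold ev
  rw [div_mul_div_comm, div_le_div_iff₀ c1 (mul_pos c1 c1)]
  nlinarith

/-- Functions of the modulus: comparison for ordered data. -/
theorem ev_ab_le (hE : Dt.Le V E E') (hn : (CF R V E).Nonempty) (hn' : (CF R V E').Nonempty)
    {B : (W → ℤ) → ℝ} (hB0 : ∀ a, 0 ≤ B a) (hB : Monotone B) :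
    ev (CF R V E) (fun h => B (ab h)) ≤ ev (CF R V E') (fun h => B (ab h)) := by
  have h := ev_data_le (R := R) hE hn hn' hB0 hB (k := 0) (I := ∅) (φ := fun _ _ => 0)
    (fun i => i.elim0)
  simpa [pl] using h

theorem ab_sup_one {h : W → ℤ} (hh : Cs R V E h) : ab h ⊔ (fun _ => 1) = ab h :=
  sup_eq_left.2 fun x => one_le_abs (hh.ht.odd x)

/-- Increasing functions of the modulus (of any sign): comparison for ordered data. -/
theorem ev_ab_mono (hE : Dt.Le V E E') (hn : (CF R V E).Nonempty) (hn' : (CF R V E').Nonempty)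
    {B : (W → ℤ) → ℝ} (hB : Monotone B) :
    ev (CF R V E) (fun h => B (ab h)) ≤ ev (CF R V E') (fun h => B (ab h)) := by
  have key := ev_ab_le (R := R) hE hn hn' (B := fun a => B (a ⊔ fun _ => 1) - B fun _ => 1)
    (fun a => sub_nonneg.2 (hB le_sup_right))
    (fun a b hab => sub_le_sub_right (hB (sup_le_sup_right hab _)) _)
  rw [ev_sub, ev_sub, ev_const _ hn, ev_const _ hn'] at key
  have e1 : ∀ E : Dt W, ev (CF R V E) (fun h => B (ab h ⊔ fun _ => 1)) =
      ev (CF R V E) fun h => B (ab h) := fun E => ev_congr _ _ _ fun h hh => by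
    rw [ab_sup_one (mem_CF.1 hh)]
  rw [e1, e1] at key
  linarith

/-- Decreasing functions of the modulus: comparison for ordered data. -/
theorem ev_ab_anti (hE : Dt.Le V E E') (hn : (CF R V E).Nonempty) (hn' : (CF R V E').Nonempty)
    {X : (W → ℤ) → ℝ} (hX : Antitone X) :
    ev (CF R V E') (fun h => X (ab h)) ≤ ev (CF R V E) (fun h => X (ab h)) := by
  have key := ev_ab_mono (R := R) hE hn hn' (B := fun a => - X a) fun a b hab => neg_le_neg (hX hab)
  have e1 : ∀ E : Dt W, ev (CF R V E) (fun h => - X (ab h)) =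
      - ev (CF R V E) fun h => X (ab h) := by
    intro E
    have := ev_const_mul (CF R V E) (-1) fun h => X (ab h)
    simpa using this
  rw [e1, e1] at key
  linarith

/-- Association of two increasing functions of the modulus (of any sign). -/
theorem ev_ab_assoc (hn : (CF R V E).Nonempty) {B Y : (W → ℤ) → ℝ}
    (hB : Monotone B) (hY : Monotone Y) :
    ev (CF R V E) (fun h => B (ab h)) * ev (CF R V E) (fun h => Y (ab h)) ≤
      ev (CF R V E) (fun h => Y (ab h) * B (ab h)) := by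
  have key := ev_assoc (R := R) (E := E) hn (B := fun a => B (a ⊔ fun _ => 1) - B fun _ => 1)
    (Y := fun a => Y (a ⊔ fun _ => 1) - Y fun _ => 1)
    (fun a => sub_nonneg.2 (hB le_sup_right))
    (fun a b hab => sub_le_sub_right (hB (sup_le_sup_right hab _)) _)
    (fun a => sub_nonneg.2 (hY le_sup_right))
    (fun a b hab => sub_le_sub_right (hY (sup_le_sup_right hab _)) _)
    (k := 0) (I := ∅) (φ := fun _ _ => 0) (fun i => i.elim0)
  have e0 : ∀ h : W → ℤ, pl (∅ : Finset W) (fun (_ : Fin 0) _ => (0 : ℝ)) h = 1 := fun h => by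
    simp [pl]
  simp only [e0, mul_one] at key
  have e1 : ∀ B : (W → ℤ) → ℝ, ev (CF R V E) (fun h => B (ab h ⊔ fun _ => 1)) =
      ev (CF R V E) fun h => B (ab h) := fun B => ev_congr _ _ _ fun h hh => by
    rw [ab_sup_one (mem_CF.1 hh)]
  have e2 : ev (CF R V E) (fun h => (Y (ab h ⊔ fun _ => 1) - Y fun _ => 1) *
      (B (ab h ⊔ fun _ => 1) - B fun _ => 1)) = ev (CF R V E) (fun h => Y (ab h) * B (ab h)) -
      (B fun _ => 1) * ev (CF R V E) (fun h => Y (ab h)) -
      (Y fun _ => 1) * ev (CF R V E) (fun h => B (ab h)) + (Y fun _ => 1) * B fun _ => 1 := by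
    rw [← ev_const_mul, ← ev_const_mul, ← ev_sub, ← ev_sub,
      ← ev_const (CF R V E) hn ((Y fun _ => 1) * B fun _ => 1), ← ev_add]
    refine ev_congr _ _ _ fun h hh => ?_
    rw [ab_sup_one (mem_CF.1 hh)]
    ring
  rw [e2, ev_sub, ev_sub, ev_const _ hn, ev_const _ hn, e1, e1] at key
  nlinarith

/-! ### Connections -/

/-- Step along an open edge inside `V`. -/
def Opn (R : W → W → Prop) (V : Finset W) (a : W → ℤ) (x y : W) : Prop :=
  x ∈ V ∧ y ∈ V ∧ R x y ∧ ¬ (a x ≤ 1 ∧ a y ≤ 1)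

/-- Connected by open edges. -/
def Cn (R : W → W → Prop) (V : Finset W) (a : W → ℤ) (x y : W) : Prop :=
  ReflTransGen (Opn R V a) x y

/-- Connected to a wired site. -/
def CnP (R : W → W → Prop) (V : Finset W) (P : Set W) (a : W → ℤ) (x : W) : Prop :=
  ∃ p ∈ V, p ∈ P ∧ Cn R V a x p

theorem Opn.mono {a b : W → ℤ} (h : a ≤ b) {x y : W} (hxy : Opn R V a x y) : Opn R V b x y :=
  ⟨hxy.1, hxy.2.1, hxy.2.2.1, fun hc => hxy.2.2.2 ⟨(h x).trans hc.1, (h y).trans hc.2⟩⟩

theorem Cn.mono {a b : W → ℤ} (h : a ≤ b) {x y : W} (hxy : Cn R V a x y) : Cn R V b x y := by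
  induction hxy with
  | refl => exact ReflTransGen.refl
  | tail _ h1 ih => exact ReflTransGen.tail ih (Opn.mono h h1)

theorem CnP.mono {P P' : Set W} (hP : ∀ x ∈ V, x ∈ P → x ∈ P') {a b : W → ℤ} (h : a ≤ b) {x : W}
    (hx : CnP R V P a x) : CnP R V P' b x := by
  obtain ⟨p, hp, hp', hxp⟩ := hx
  exact ⟨p, hp, hP p hp hp', hxp.mono h⟩

theorem Cn.symm (hR : ∀ x y, R x y → R y x) {a : W → ℤ} {x y : W} (h : Cn R V a x y) :
    Cn R V a y x := by
  induction h with
  | refl => exact ReflTransGen.refl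
  | tail _ h1 ih =>
    exact ReflTransGen.head ⟨h1.2.1, h1.1, hR _ _ h1.2.2.1, fun hc => h1.2.2.2 ⟨hc.2, hc.1⟩⟩ ih

/-- Signs are constant along open paths. -/
theorem sign_const {P : Set W} {a : W → ℤ} {s : W → ℤˣ} (hs : s ∈ SG R V P a) {x y : W}
    (h : Cn R V a x y) : s x = s y := by
  induction h with
  | refl => rfl
  | tail _ h1 ih => exact ih.trans ((mem_SG.1 hs).2.2 _ h1.1 _ h1.2.1 h1.2.2.1 h1.2.2.2)

/-- The signs of a site are all `1` if and only if it is connected to a wired site. -/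
theorem sign_one_iff (hR : ∀ x y, R x y → R y x) {P : Set W} {a : W → ℤ} {z : W} (hz : z ∈ V) :
    (∀ s ∈ SG R V P a, s z = 1) ↔ CnP R V P a z := by
  constructor
  · intro h
    by_contra hc
    let s : W → ℤˣ := fun x => if Cn R V a z x then -1 else 1
    have hin : ∀ x, Cn R V a z x → x ∈ V := by
      intro x hx
      induction hx with
      | refl => exact hz
      | tail _ h1 _ => exact h1.2.1
    have hs : s ∈ SG R V P a := by
      refine mem_SG.2 ⟨fun x hx => ?_, fun x hx hp => ?_, fun x hx y hy hxy hne => ?_⟩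
      · exact if_neg fun h => hx (hin x h)
      · exact if_neg fun h => hc ⟨x, hx, hp, h⟩
      · have h1 : Opn R V a x y := ⟨hx, hy, hxy, hne⟩
        have h2 : Opn R V a y x := ⟨hy, hx, hR _ _ hxy, fun hc => hne ⟨hc.2, hc.1⟩⟩
        have h3 : Cn R V a z x ↔ Cn R V a z y :=
          ⟨fun h => h.tail h1, fun h => h.tail h2⟩
        simp only [s, h3]
    have h1 := h s hs
    have h2 : s z = -1 := if_pos ReflTransGen.refl
    rw [h2] at h1
    exact absurd h1 (by decide)
  · rintro ⟨p, hp, hp', hzp⟩ s hs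
    rw [sign_const hs hzp]
    exact (mem_SG.1 hs).2.1 p hp hp'

/-- Representation of the mean. -/
theorem sum_height (hR : ∀ x y, R x y → R y x) {z : W} (hz : z ∈ V) (Y : (W → ℤ) → ℝ) :
    ∑ h ∈ CF R V E, Y (ab h) * (h z : ℝ) =
      ∑ h ∈ CF R V E, Y (ab h) * (if CnP R V E.P (ab h) z then (|h z| : ℝ) else 0) := by
  have h1 := sum_CF_pl (R := R) (V := V) (E := E) (k := 1) (I := {z}) (φ := fun _ _ => 1) Y
  have e1 : ∀ h : W → ℤ, pl ({z} : Finset W) (fun (_ : Fin 1) _ => (1 : ℝ)) h = (h z : ℝ) := by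
    intro h
    simp [pl]
  simp only [e1] at h1
  rw [h1]
  have h2 := sum_CF_ab (R := R) (V := V) (E := E)
    (fun a => Y a * (if CnP R V E.P a z then (a z : ℝ) else 0))
  have e2 : ∀ h : W → ℤ, Y (ab h) * (if CnP R V E.P (ab h) z then (|h z| : ℝ) else 0) =
      (fun a => Y a * (if CnP R V E.P a z then (a z : ℝ) else 0)) (ab h) := by
    intro h
    simp only [ab, Int.cast_abs]
  rw [Finset.sum_congr rfl fun h _ => e2 h, h2]
  refine Finset.sum_congr rfl fun a ha => ?_
  have ha1 := (mem_AF.1 ha).one z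
  have e3 : Fk R V E.P ({z} : Finset W) (fun (_ : Fin 1) _ => (1 : ℝ)) a =
      if CnP R V E.P a z then (a z : ℝ) else 0 := by
    unfold Fk
    rw [Fintype.piFinset_singleton, Finset.sum_singleton]
    simp only [one_mul, max_eq_left ha1, Finset.univ_unique, Finset.prod_singleton]
    simp only [sign_one_iff (R := R) (V := V) (P := E.P) (a := a) hR hz]
    split_ifs <;> simp
  rw [e3]
  ring

/-- The mean is nonnegative and is carried by the connection to the wired sites. -/
theorem ev_height (hR : ∀ x y, R x y → R y x) {z : W} (hz : z ∈ V) :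
    ev (CF R V E) (fun h => (h z : ℝ)) =
      ev (CF R V E) (fun h => if CnP R V E.P (ab h) z then (|h z| : ℝ) else 0) := by
  have h := sum_height (R := R) (E := E) hR hz fun _ => 1
  simp only [one_mul] at h
  unfold ev
  rw [h]

end Vale.Agent.P153.R2.K
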