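import Vale.Agent.P153.R2.Base.Basic
import Vale.Agent.P153.R2.FKGK.Use

/-!
# P153-R2, block FKGK: association of the modulus at a level, for the laws `Cfg V I`

`md m h` is the modulus `|h - m|` (`m` even). Single-site data are allowed at the level `m` with the
sign `σ` (`1` or `-1`) if they are symmetric about `m` or on the side `σ` of `m` (`Sd`). The order
`SdLe m σ S T`: the wired sites stay wired, and the moduli are ordered (strong order).
* `md_le`: for ordered data, `D` decreasing and `U` increasing in the modulus: the averages of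
  `B (md m h) * ∏ i, ∑ x ∈ Z, φ i x * (σ * (h x - m))` (`B ≥ 0` increasing, `φ ≥ 0`) are ordered.
* `md_mono`: the same for increasing functions of the modulus alone.
* `md_rep`: the mean of `σ * (h z - m)` is carried by the connection of `z` to the wired sites.
-/

namespace Vale.Agent.P153.R2

open Set Relation
open Vale.Agent.P153
open Vale.Agent.P153.Topo (Conn)
open scoped Classical

/-- The modulus at the level `m`. -/
def md (m : ℤ) (h : Hg) : Hg := fun x => |h x - m|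

/-- All the (odd) values are on the side `σ` of `m`. -/
def Wr (m σ : ℤ) (S : Set ℤ) : Prop := ∀ a ∈ S, Odd a → 0 < σ * (a - m)

/-- Symmetric about `m` or on the side `σ` of `m`. -/
def Sd (m σ : ℤ) (S : Set ℤ) : Prop := Wr m σ S ∨ ∀ a ∈ S, Odd a → 2 * m - a ∈ S

/-- The order of the single-site data. -/
structure SdLe (m σ : ℤ) (S T : Set ℤ) : Prop where
  fst : Sd m σ S
  snd : Sd m σ T
  wr : Wr m σ S → Wr m σ T
  ord : ∀ a ∈ S, Odd a → ∀ b ∈ T, Odd b → |b - m| < |a - m| →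
    (∃ a' ∈ S, Odd a' ∧ |a' - m| = |b - m|) ∧ ∃ b' ∈ T, Odd b' ∧ |b' - m| = |a - m|

/-- Product of linear functionals of `σ * (h - m)`. -/
noncomputable def pm {k : ℕ} (m σ : ℤ) (Z : Finset Pt) (φ : Fin k → Pt → ℝ) (h : Hg) : ℝ :=
  ∏ i, ∑ x ∈ Z, φ i x * ((σ * (h x - m) : ℤ) : ℝ)

/-! ### The transfer to the abstract ensembles -/

namespace Tr

/-- Edges which touch `V`. -/
def Rel (V : Set Pt) (x y : Pt) : Prop := Adj x y ∧ (x ∈ V ∨ y ∈ V)

theorem Rel_symm {V : Set Pt} : ∀ x y, Rel V x y → Rel V y x :=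
  fun _ _ h => ⟨Topo.adj_symm h.1, h.2.symm⟩

/-- Transfer. -/
noncomputable def T (U : Finset Pt) (m σ : ℤ) (h : Hg) : Hg :=
  fun x => if x ∈ U then σ * (h x - m) else 1

/-- Inverse transfer. -/
noncomputable def T' (U : Finset Pt) (m σ : ℤ) (c : Hg) (k : Hg) : Hg :=
  fun x => if x ∈ U then m + σ * k x else c x

/-- Extension of the modulus. -/
noncomputable def ex (U : Finset Pt) (m : ℤ) (c : Hg) (a : Hg) : Hg :=
  fun x => if x ∈ U then a x else |c x - m|

/-- The data of the abstract ensemble. -/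
def E (m σ : ℤ) (N : Hg) (I : Pt → Set ℤ) : K.Dt Pt where
  lo := fun _ => 1
  hi := N
  P := {x | Wr m σ (I x)}

/-- The moduli allowed by the data. -/
def Al (U : Finset Pt) (m : ℤ) (I : Pt → Set ℤ) (a : Hg) : Prop :=
  ∀ x ∈ U, ∃ b ∈ I x, Odd b ∧ |b - m| = a x

/-- Hypotheses for the transfer of one ensemble. -/
structure Ok (V : Set Pt) (I : Pt → Set ℤ) (U : Finset Pt) (m σ : ℤ) (c N : Hg) : Prop where
  even : Even m
  sg : σ = 1 ∨ σ = -1
  nb : ∀ x ∈ nb V, x ∈ U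
  sd : ∀ x ∈ U, Sd m σ (I x)
  off : ∀ x, x ∉ U → I x = {c x}
  codd : ∀ x, x ∉ U → Odd (c x)
  bd : ∀ h ∈ Cfg V I, ∀ x ∈ U, |h x - m| ≤ N x

variable {V : Set Pt} {I J : Pt → Set ℤ} {U : Finset Pt} {m σ : ℤ} {c N : Hg}

theorem sg_sq (h : σ = 1 ∨ σ = -1) : σ * σ = 1 := by
  rcases h with h | h <;> rw [h] <;> norm_num

theorem abs_sg (h : σ = 1 ∨ σ = -1) (n : ℤ) : |σ * n| = |n| := by
  rcases h with h | h <;> rw [h] <;> simp

theorem odd_sg (h : σ = 1 ∨ σ = -1) {n : ℤ} (hn : Odd n) : Odd (σ * n) := by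
  rcases h with h | h <;> rw [h]
  · simpa using hn
  · simpa using hn

theorem T_in {h : Hg} {x : Pt} (hx : x ∈ U) : T U m σ h x = σ * (h x - m) := if_pos hx
theorem T_out {h : Hg} {x : Pt} (hx : x ∉ U) : T U m σ h x = 1 := if_neg hx
theorem T'_in {k : Hg} {x : Pt} (hx : x ∈ U) : T' U m σ c k x = m + σ * k x := if_pos hx
theorem T'_out {k : Hg} {x : Pt} (hx : x ∉ U) : T' U m σ c k x = c x := if_neg hx

theorem mem_nb_of_left {x y : Pt} (hx : x ∈ V) (hxy : Adj x y) : x ∈ nb V ∧ y ∈ nb V := by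
  refine ⟨Or.inl hx, ?_⟩
  by_cases hy : y ∈ V
  · exact Or.inl hy
  · exact Or.inr ⟨hy, x, hx, hxy⟩

theorem T_mem (ok : Ok V I U m σ c N) {h : Hg} (hh : h ∈ Cfg V I) :
    T U m σ h ∈ K.CF (Rel V) U (E m σ N I) ∧ Al U m I (K.ab (T U m σ h)) := by
  refine ⟨K.mem_CF.2 ⟨⟨fun x hx => T_out hx, fun x => ?_, fun x hx y hy hxy => ?_⟩,
    fun x hx => ?_, fun x hx => ?_, fun x hx hP => ?_⟩, fun x hx => ?_⟩
  · by_cases hx : x ∈ U
    · rw [T_in hx]
      exact odd_sg ok.sg ((hh.1 x).sub_even ok.even)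
    · rw [T_out hx]; exact odd_one
  · rw [T_in hx, T_in hy, ← mul_sub, abs_sg ok.sg]
    have e : h x - m - (h y - m) = h x - h y := by ring
    rw [e]
    rcases hxy.2 with h1 | h1
    · exact hh.2.2 x h1 y hxy.1
    · rw [abs_sub_comm]
      exact hh.2.2 y h1 x (Topo.adj_symm hxy.1)
  · rw [T_in hx]
    exact K.one_le_abs (odd_sg ok.sg ((hh.1 x).sub_even ok.even))
  · rw [T_in hx, abs_sg ok.sg]
    exact ok.bd h hh x hx
  · rw [T_in hx]
    exact hP (h x) (hh.2.1 x) (hh.1 x)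
  · refine ⟨h x, hh.2.1 x, hh.1 x, ?_⟩
    show |h x - m| = |T U m σ h x|
    rw [T_in hx, abs_sg ok.sg]

theorem T'_mem (ok : Ok V I U m σ c N) {k : Hg} (hk : k ∈ K.CF (Rel V) U (E m σ N I))
    (hA : Al U m I (K.ab k)) : T' U m σ c k ∈ Cfg V I := by
  rw [K.mem_CF] at hk
  refine ⟨fun x => ?_, fun x => ?_, fun x hx y hxy => ?_⟩
  · by_cases hx : x ∈ U
    · rw [T'_in hx]
      exact ok.even.add_odd (odd_sg ok.sg (hk.ht.odd x))
    · rw [T'_out hx]; exact ok.codd x hx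
  · by_cases hx : x ∈ U
    · rw [T'_in hx]
      obtain ⟨b, hb, hbo, hbk⟩ := hA x hx
      change |b - m| = |k x| at hbk
      have hkx : k x = σ * (b - m) ∨ k x = - (σ * (b - m)) := by
        have h1 : |k x| = |σ * (b - m)| := by rw [abs_sg ok.sg, hbk]
        exact abs_eq_abs.1 h1
      have hs2 := sg_sq ok.sg
      rcases hkx with h1 | h1
      · have : m + σ * k x = b := by
          rw [h1, ← mul_assoc, hs2]; ring
        rw [this]; exact hb
      · rcases ok.sd x hx with h2 | h2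
        · exfalso
          have h3 := h2 b hb hbo
          have h4 := hk.P x hx h2
          omega
        · have : m + σ * k x = 2 * m - b := by
            rw [h1, mul_neg, ← mul_assoc, hs2]; ring
          rw [this]
          exact h2 b hb hbo
    · rw [T'_out hx, ok.off x hx]; rfl
  · have hn := mem_nb_of_left hx hxy
    have hxU := ok.nb x hn.1
    have hyU := ok.nb y hn.2
    rw [T'_in hxU, T'_in hyU]
    have e : m + σ * k x - (m + σ * k y) = σ * (k x - k y) := by ring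
    rw [e, abs_sg ok.sg]
    exact hk.ht.lip x hxU y hyU ⟨hxy, Or.inl hx⟩

theorem T'_T (ok : Ok V I U m σ c N) {h : Hg} (hh : h ∈ Cfg V I) :
    T' U m σ c (T U m σ h) = h := by
  funext x
  by_cases hx : x ∈ U
  · rw [T'_in hx, T_in hx, ← mul_assoc, sg_sq ok.sg]; ring
  · rw [T'_out hx]
    have := hh.2.1 x
    rw [ok.off x hx] at this
    exact (Set.mem_singleton_iff.1 this).symm

theorem T_T' (hs : σ = 1 ∨ σ = -1) {k : Hg} (hk : ∀ x, x ∉ U → k x = 1) :
    T U m σ (T' U m σ c k) = k := by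
  funext x
  by_cases hx : x ∈ U
  · rw [T_in hx, T'_in hx, add_sub_cancel_left, ← mul_assoc, sg_sq hs, one_mul]
  · rw [T_out hx, hk x hx]

theorem ex_mono : Monotone (ex U m c) := by
  intro a b hab x
  unfold ex
  split_ifs
  · exact hab x
  · exact le_rfl

theorem ex_ab (ok : Ok V I U m σ c N) {h : Hg} (hh : h ∈ Cfg V I) :
    ex U m c (K.ab (T U m σ h)) = md m h := by
  funext x
  unfold ex md
  split_ifs with hx
  · show |T U m σ h x| = |h x - m|
    rw [T_in hx, abs_sg ok.sg]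
  · have := hh.2.1 x
    rw [ok.off x hx, Set.mem_singleton_iff] at this
    rw [this]

theorem pl_T {k : ℕ} {Z : Finset Pt} (hZ : ∀ x ∈ Z, x ∈ U) (φ : Fin k → Pt → ℝ) (h : Hg) :
    K.pl Z φ (T U m σ h) = pm m σ Z φ h := by
  unfold K.pl pm
  refine Finset.prod_congr rfl fun i _ => Finset.sum_congr rfl fun x hx => ?_
  rw [T_in (hZ x hx)]

/-- Transfer of sums. -/
theorem sum_T (ok : Ok V I U m σ c N) (hI : (Cfg V I).Finite) (G : Hg → ℝ) :
    ∑ h ∈ hI.toFinset, G (T U m σ h) =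
      ∑ k ∈ K.CF (Rel V) U (E m σ N I), (if Al U m I (K.ab k) then 1 else 0) * G k := by
  have e1 : ∑ k ∈ K.CF (Rel V) U (E m σ N I), (if Al U m I (K.ab k) then (1 : ℝ) else 0) * G k =
      ∑ k ∈ (K.CF (Rel V) U (E m σ N I)).filter (fun k => Al U m I (K.ab k)), G k := by
    rw [Finset.sum_filter]
    refine Finset.sum_congr rfl fun k _ => ?_
    split_ifs <;> simp
  rw [e1]
  refine Finset.sum_nbij' (T U m σ) (T' U m σ c) ?_ ?_ ?_ ?_ ?_
  · intro h hh
    rw [Set.Finite.mem_toFinset] at hh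
    exact Finset.mem_filter.2 (T_mem ok hh)
  · intro k hk
    rw [Finset.mem_filter] at hk
    rw [Set.Finite.mem_toFinset]
    exact T'_mem ok hk.1 hk.2
  · intro h hh
    rw [Set.Finite.mem_toFinset] at hh
    exact T'_T ok hh
  · intro k hk
    rw [Finset.mem_filter, K.mem_CF] at hk
    exact T_T' ok.sg hk.1.ht.off
  · intro h _; rfl

/-- Transfer of the weighted sums. -/
theorem sum_md (ok : Ok V I U m σ c N) (hI : (Cfg V I).Finite) (X B : Hg → ℝ) {k : ℕ}
    {Z : Finset Pt} (hZ : ∀ x ∈ Z, x ∈ U) (φ : Fin k → Pt → ℝ) :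
    ∑ h ∈ hI.toFinset, X (md m h) * (B (md m h) * pm m σ Z φ h) =
      ∑ k ∈ K.CF (Rel V) U (E m σ N I),
        ((if Al U m I (K.ab k) then 1 else 0) * X (ex U m c (K.ab k))) *
          (B (ex U m c (K.ab k)) * K.pl Z φ k) := by
  have h1 := sum_T ok hI (fun k => X (ex U m c (K.ab k)) * (B (ex U m c (K.ab k)) * K.pl Z φ k))
  have e1 : ∀ h ∈ hI.toFinset, X (ex U m c (K.ab (T U m σ h))) *
      (B (ex U m c (K.ab (T U m σ h))) * K.pl Z φ (T U m σ h)) =
        X (md m h) * (B (md m h) * pm m σ Z φ h) := by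
    intro h hh
    rw [Set.Finite.mem_toFinset] at hh
    rw [ex_ab ok hh, pl_T hZ]
  rw [← Finset.sum_congr rfl e1, h1]
  exact Finset.sum_congr rfl fun k _ => by ring

theorem sum_md' (ok : Ok V I U m σ c N) (hI : (Cfg V I).Finite) (X : Hg → ℝ) :
    ∑ h ∈ hI.toFinset, X (md m h) =
      ∑ k ∈ K.CF (Rel V) U (E m σ N I),
        ((if Al U m I (K.ab k) then 1 else 0) * X (ex U m c (K.ab k))) := by
  have h1 := sum_T ok hI (fun k => X (ex U m c (K.ab k)))
  rw [← h1]
  refine Finset.sum_congr rfl fun h hh => ?_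
  rw [Set.Finite.mem_toFinset] at hh
  rw [ex_ab ok hh]

/-- The order of the data. -/
theorem E_le (h : ∀ x ∈ U, Wr m σ (I x) → Wr m σ (J x)) :
    K.Dt.Le U (E m σ N I) (E m σ N J) :=
  ⟨fun _ _ => le_rfl, fun _ _ => le_rfl, fun x hx hp => h x hx hp⟩

theorem Al_inf_sup (h : ∀ x ∈ U, SdLe m σ (I x) (J x)) {a b : Hg} (ha : Al U m I a)
    (hb : Al U m J b) : Al U m I (a ⊓ b) ∧ Al U m J (a ⊔ b) := by
  refine ⟨fun x hx => ?_, fun x hx => ?_⟩
  · obtain ⟨a', ha', hao, hae⟩ := ha x hx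
    obtain ⟨b', hb', hbo, hbe⟩ := hb x hx
    by_cases hc : a x ≤ b x
    · exact ⟨a', ha', hao, by simpa [hc] using hae⟩
    · push Not at hc
      obtain ⟨⟨a2, h1, h2, h3⟩, -⟩ := (h x hx).ord a' ha' hao b' hb' hbo (by rw [hae, hbe]; exact hc)
      exact ⟨a2, h1, h2, by rw [h3, hbe]; simp [hc.le]⟩
  · obtain ⟨a', ha', hao, hae⟩ := ha x hx
    obtain ⟨b', hb', hbo, hbe⟩ := hb x hx
    by_cases hc : a x ≤ b x
    · exact ⟨b', hb', hbo, by simpa [hc] using hbe⟩
    · push Not at hc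
      obtain ⟨-, ⟨b2, h1, h2, h3⟩⟩ := (h x hx).ord a' ha' hao b' hb' hbo (by rw [hae, hbe]; exact hc)
      exact ⟨b2, h1, h2, by rw [h3, hae]; simp [hc.le]⟩

end Tr

/-! ### Finiteness -/

theorem adj_finite (x : Pt) : {y | Adj x y}.Finite := by
  refine ((Set.finite_Icc (x.1 - 1) (x.1 + 1)).prod (Set.finite_Icc (x.2 - 1) (x.2 + 1))).subset ?_
  intro y hy
  have h := Topo.adj_iff.1 hy
  simp only [Set.mem_prod, Set.mem_Icc]
  omega

theorem ebd_finite {V : Set Pt} (hV : V.Finite) : (ebd V).Finite := by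
  refine (hV.biUnion fun x _ => adj_finite x).subset ?_
  rintro y ⟨-, x, hx, hxy⟩
  exact Set.mem_biUnion hx hxy

theorem nb_finite {V : Set Pt} (hV : V.Finite) : (nb V).Finite := hV.union (ebd_finite hV)

theorem Ex_inter_eq {α : Type*} {S : Set α} (hS : S.Finite) (A : Set α) (F : α → ℝ) :
    Ex (S ∩ A) F = (∑ h ∈ hS.toFinset, ind A h * F h) / ∑ h ∈ hS.toFinset, ind A h := by
  have h1 : ∀ G : α → ℝ, ∑ h ∈ hS.toFinset, ind A h * G h = ∑ h ∈ (hS.inter_of_left A).toFinset, G h := by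
    intro G
    symm
    have e : (hS.inter_of_left A).toFinset = hS.toFinset.filter (fun h => h ∈ A) := by
      ext h; simp
    rw [e, Finset.sum_filter]
    refine Finset.sum_congr rfl fun h _ => ?_
    unfold ind
    split_ifs <;> simp
  rw [Ex_eq_ev (hS.inter_of_left A), h1]
  have h2 := h1 fun _ => 1
  simp only [mul_one] at h2
  rw [h2]
  unfold ev
  simp

/-! ### Comparison at a level -/

/-- Two ensembles with ordered data at the level `m` (even), sign `σ`; the sites away from `V` may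
have arbitrary, equal, fixed data. -/
structure Cmp (V : Set Pt) (I J : Pt → Set ℤ) (m σ : ℤ) : Prop where
  even : Even m
  sg : σ = 1 ∨ σ = -1
  dI : Dat V I
  dJ : Dat V J
  fin : {x | I x ≠ J x}.Finite
  ne : (Cfg V I).Nonempty
  ne' : (Cfg V J).Nonempty
  le : ∀ x, SdLe m σ (I x) (J x) ∨ (x ∉ nb V ∧ I x = J x ∧ (I x).Subsingleton)

variable {V : Set Pt} {I J : Pt → Set ℤ} {m σ : ℤ}

theorem Cmp.exists_ok (h : Cmp V I J m σ) (Z : Finset Pt) (hZ : ∀ x ∈ Z, x ∈ nb V) :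
    ∃ (U : Finset Pt) (c N : Hg), (∀ x ∈ Z, x ∈ U) ∧ (∀ x ∈ U, SdLe m σ (I x) (J x)) ∧
      Tr.Ok V I U m σ c N ∧ Tr.Ok V J U m σ c N := by
  have hU : (nb V ∪ {x | ¬ (I x).Subsingleton} ∪ {x | I x ≠ J x}).Finite :=
    ((nb_finite h.dI.fin).union h.dI.cof).union h.fin
  obtain ⟨h0, hh0⟩ := h.ne
  have hle : ∀ x ∈ hU.toFinset, SdLe m σ (I x) (J x) := by
    intro x hx
    rw [Set.Finite.mem_toFinset] at hx
    rcases h.le x with h1 | ⟨h1, h2, h3⟩
    · exact h1
    · exfalso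
      rcases hx with (hx | hx) | hx
      · exact h1 hx
      · exact hx h3
      · exact hx h2
  have hsub : ∀ x, x ∉ hU.toFinset → I x = {h0 x} ∧ J x = I x := by
    intro x hx
    rw [Set.Finite.mem_toFinset] at hx
    simp only [Set.mem_union, Set.mem_ofPred_eq, not_or, not_not] at hx
    exact ⟨hx.1.2.eq_singleton_of_mem (hh0.2.1 x), hx.2.symm⟩
  have hb : ∀ x : Pt, ∃ N : ℤ, ∀ g, g ∈ Cfg V I ∨ g ∈ Cfg V J → |g x - m| ≤ N := by
    intro x
    obtain ⟨N, hN⟩ := (((Cfg_finite h.dI).union (Cfg_finite h.dJ)).image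
      (fun g => |g x - m|)).bddAbove
    exact ⟨N, fun g hg => hN ⟨g, hg, rfl⟩⟩
  choose N hN using hb
  refine ⟨hU.toFinset, h0, N, fun x hx => ?_, hle, ?_, ?_⟩
  · rw [Set.Finite.mem_toFinset]
    exact Or.inl (Or.inl (hZ x hx))
  · exact ⟨h.even, h.sg, fun x hx => by
      rw [Set.Finite.mem_toFinset]; exact Or.inl (Or.inl hx), fun x hx => (hle x hx).fst,
      fun x hx => (hsub x hx).1, fun x _ => hh0.1 x, fun g hg x _ => hN x g (Or.inl hg)⟩
  · exact ⟨h.even, h.sg, fun x hx => by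
      rw [Set.Finite.mem_toFinset]; exact Or.inl (Or.inl hx), fun x hx => (hle x hx).snd,
      fun x hx => by rw [(hsub x hx).2, (hsub x hx).1], fun x _ => hh0.1 x,
      fun g hg x _ => hN x g (Or.inr hg)⟩

/-- Master comparison: smaller data and a decreasing conditioning, against larger data and an
increasing conditioning. -/
theorem md_le (h : Cmp V I J m σ) {D U : Set Hg} (hD : IsLowerSet D) (hU : IsUpperSet U)
    (hn : (Cfg V I ∩ {g | md m g ∈ D}).Nonempty) (hn' : (Cfg V J ∩ {g | md m g ∈ U}).Nonempty)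
    {B : Hg → ℝ} (hB0 : ∀ a, 0 ≤ B a) (hB : Monotone B) {k : ℕ} {Z : Finset Pt}
    (hZ : ∀ x ∈ Z, x ∈ nb V) {φ : Fin k → Pt → ℝ} (hφ : ∀ i, ∀ x ∈ Z, 0 ≤ φ i x) :
    Ex (Cfg V I ∩ {g | md m g ∈ D}) (fun g => B (md m g) * pm m σ Z φ g) ≤
      Ex (Cfg V J ∩ {g | md m g ∈ U}) (fun g => B (md m g) * pm m σ Z φ g) := by
  obtain ⟨W, c, N, hZW, hle, ok, ok'⟩ := h.exists_ok Z hZ
  have fI := Cfg_finite h.dI
  have fJ := Cfg_finite h.dJ
  rw [Ex_inter_eq fI, Ex_inter_eq fJ]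
  have pI : 0 < ∑ g ∈ fI.toFinset, ind {g | md m g ∈ D} g := by
    obtain ⟨g, hg, hgD⟩ := hn
    refine Finset.sum_pos' (fun g _ => by unfold ind; split_ifs <;> norm_num)
      ⟨g, by simpa using hg, ?_⟩
    unfold ind
    rw [if_pos hgD]
    norm_num
  have pJ : 0 < ∑ g ∈ fJ.toFinset, ind {g | md m g ∈ U} g := by
    obtain ⟨g, hg, hgD⟩ := hn'
    refine Finset.sum_pos' (fun g _ => by unfold ind; split_ifs <;> norm_num)
      ⟨g, by simpa using hg, ?_⟩
    unfold ind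
    rw [if_pos hgD]
    norm_num
  rw [div_le_div_iff₀ pI pJ]
  have iD : ∀ g, ind {g | md m g ∈ D} g = ind D (md m g) := fun g => rfl
  have iU : ∀ g, ind {g | md m g ∈ U} g = ind U (md m g) := fun g => rfl
  simp only [iD, iU]
  rw [Tr.sum_md ok fI (ind D) B hZW φ, Tr.sum_md ok' fJ (ind U) B hZW φ,
    Tr.sum_md' ok fI (ind D), Tr.sum_md' ok' fJ (ind U)]
  have key := K.master (R := Tr.Rel V) (V := W) (E := Tr.E m σ N I) (E' := Tr.E m σ N J)
    (Tr.E_le fun x hx => (hle x hx).wr)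
    (X₁ := fun a => (if Tr.Al W m I a then 1 else 0) * ind D (Tr.ex W m c a))
    (X₂ := fun a => (if Tr.Al W m J a then 1 else 0) * ind U (Tr.ex W m c a))
    (fun a => by unfold ind; split_ifs <;> norm_num)
    (fun a => by unfold ind; split_ifs <;> norm_num)
    (fun a _ b _ => by
      unfold ind
      by_cases h1 : Tr.Al W m I a
      · by_cases h2 : Tr.Al W m J b
        · by_cases h3 : Tr.ex W m c a ∈ D
          · by_cases h4 : Tr.ex W m c b ∈ U
            · have h5 := Tr.Al_inf_sup hle h1 h2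
              have h6 : Tr.ex W m c (a ⊓ b) ∈ D := hD (Tr.ex_mono inf_le_left) h3
              have h7 : Tr.ex W m c (a ⊔ b) ∈ U := hU (Tr.ex_mono le_sup_right) h4
              simp [h5.1, h5.2, h6, h7, h1, h2, h3, h4]
            · rw [if_neg h4]
              simp only [mul_zero]
              split_ifs <;> norm_num
          · rw [if_neg h3]
            simp only [mul_zero, zero_mul]
            split_ifs <;> norm_num
        · rw [if_neg h2]
          simp only [mul_zero, zero_mul]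
          split_ifs <;> norm_num
      · rw [if_neg h1]
        simp only [zero_mul]
        split_ifs <;> norm_num)
    (B := fun a => B (Tr.ex W m c a)) (fun a => hB0 _) (fun a b hab => hB (Tr.ex_mono hab))
    (I := Z) (φ := φ) hφ
  calc _ ≤ _ := key
    _ = _ := by ring

theorem pm_zero (m σ : ℤ) (h : Hg) :
    pm m σ (∅ : Finset Pt) (fun (_ : Fin 0) _ => (0 : ℝ)) h = 1 := by
  simp [pm]

theorem pm_one (m σ : ℤ) (z : Pt) (h : Hg) :
    pm m σ ({z} : Finset Pt) (fun (_ : Fin 1) _ => (1 : ℝ)) h = ((σ * (h z - m) : ℤ) : ℝ) := by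
  simp [pm]

theorem one_le_md {h : Hg} (hh : h ∈ Cfg V I) (hm : Even m) (x : Pt) : 1 ≤ md m h x :=
  K.one_le_abs ((hh.1 x).sub_even hm)

/-- Increasing functions of the modulus (any sign). -/
theorem md_mono (h : Cmp V I J m σ) {D U : Set Hg} (hD : IsLowerSet D) (hU : IsUpperSet U)
    (hn : (Cfg V I ∩ {g | md m g ∈ D}).Nonempty) (hn' : (Cfg V J ∩ {g | md m g ∈ U}).Nonempty)
    {B : Hg → ℝ} (hB : Monotone B) :
    Ex (Cfg V I ∩ {g | md m g ∈ D}) (fun g => B (md m g)) ≤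
      Ex (Cfg V J ∩ {g | md m g ∈ U}) (fun g => B (md m g)) := by
  have key := md_le h hD hU hn hn' (B := fun a => B (a ⊔ fun _ => 1) - B fun _ => 1)
    (fun a => sub_nonneg.2 (hB le_sup_right))
    (fun a b hab => sub_le_sub_right (hB (sup_le_sup_right hab _)) _)
    (k := 0) (Z := ∅) (fun x hx => absurd hx (Finset.notMem_empty x)) (φ := fun _ _ => 0)
    (fun i => i.elim0)
  simp only [pm_zero, mul_one] at key
  rw [Ex_sub, Ex_sub, Ex_const ((Cfg_finite h.dI).inter_of_left _) hn,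
    Ex_const ((Cfg_finite h.dJ).inter_of_left _) hn'] at key
  have e1 : ∀ (I : Pt → Set ℤ) (D : Set Hg), Ex (Cfg V I ∩ {g | md m g ∈ D})
      (fun g => B (md m g ⊔ fun _ => 1)) = Ex (Cfg V I ∩ {g | md m g ∈ D}) (fun g => B (md m g)) :=
    fun I D => Ex_congr fun g hg => by
      have : (md m g ⊔ fun _ => 1) = md m g := sup_eq_left.2 fun x => one_le_md hg.1 h.even x
      rw [this]
  rw [e1, e1] at key
  linarith

/-- Decreasing functions of the modulus (any sign). -/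
theorem md_anti (h : Cmp V I J m σ) {D U : Set Hg} (hD : IsLowerSet D) (hU : IsUpperSet U)
    (hn : (Cfg V I ∩ {g | md m g ∈ D}).Nonempty) (hn' : (Cfg V J ∩ {g | md m g ∈ U}).Nonempty)
    {B : Hg → ℝ} (hB : Antitone B) :
    Ex (Cfg V J ∩ {g | md m g ∈ U}) (fun g => B (md m g)) ≤
      Ex (Cfg V I ∩ {g | md m g ∈ D}) (fun g => B (md m g)) := by
  have key := md_mono h hD hU hn hn' (B := fun a => - B a) (fun a b hab => neg_le_neg (hB hab))
  rw [Ex_neg, Ex_neg] at key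
  linarith

/-- Increasing events of the modulus. -/
theorem md_Pr_mono (h : Cmp V I J m σ) {D U A : Set Hg} (hD : IsLowerSet D) (hU : IsUpperSet U)
    (hn : (Cfg V I ∩ {g | md m g ∈ D}).Nonempty) (hn' : (Cfg V J ∩ {g | md m g ∈ U}).Nonempty)
    (hA : IsUpperSet A) :
    Pr (Cfg V I ∩ {g | md m g ∈ D}) {g | md m g ∈ A} ≤
      Pr (Cfg V J ∩ {g | md m g ∈ U}) {g | md m g ∈ A} := by
  rw [Pr_eq_Ex ((Cfg_finite h.dI).inter_of_left _), Pr_eq_Ex ((Cfg_finite h.dJ).inter_of_left _)]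
  exact md_mono h hD hU hn hn' (B := ind A) fun a b hab => by
    unfold ind
    by_cases h1 : a ∈ A
    · rw [if_pos h1, if_pos (hA hab h1)]
    · rw [if_neg h1]; split_ifs <;> norm_num

/-- Decreasing events of the modulus. -/
theorem md_Pr_anti (h : Cmp V I J m σ) {D U A : Set Hg} (hD : IsLowerSet D) (hU : IsUpperSet U)
    (hn : (Cfg V I ∩ {g | md m g ∈ D}).Nonempty) (hn' : (Cfg V J ∩ {g | md m g ∈ U}).Nonempty)
    (hA : IsLowerSet A) :
    Pr (Cfg V J ∩ {g | md m g ∈ U}) {g | md m g ∈ A} ≤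
      Pr (Cfg V I ∩ {g | md m g ∈ D}) {g | md m g ∈ A} := by
  rw [Pr_eq_Ex ((Cfg_finite h.dI).inter_of_left _), Pr_eq_Ex ((Cfg_finite h.dJ).inter_of_left _)]
  exact md_anti h hD hU hn hn' (B := ind A) fun a b hab => by
    unfold ind
    by_cases h1 : b ∈ A
    · rw [if_pos h1, if_pos (hA hab h1)]
    · rw [if_neg h1]; split_ifs <;> norm_num

/-- Means. -/
theorem md_mean (h : Cmp V I J m σ) {D U : Set Hg} (hD : IsLowerSet D) (hU : IsUpperSet U)
    (hn : (Cfg V I ∩ {g | md m g ∈ D}).Nonempty) (hn' : (Cfg V J ∩ {g | md m g ∈ U}).Nonempty)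
    {z : Pt} (hz : z ∈ nb V) :
    Ex (Cfg V I ∩ {g | md m g ∈ D}) (fun g => ((σ * (g z - m) : ℤ) : ℝ)) ≤
      Ex (Cfg V J ∩ {g | md m g ∈ U}) (fun g => ((σ * (g z - m) : ℤ) : ℝ)) := by
  have key := md_le h hD hU hn hn' (B := fun _ => 1) (fun _ => zero_le_one)
    (fun _ _ _ => le_rfl) (k := 1) (Z := {z}) (fun x hx => by
      rw [Finset.mem_singleton] at hx; rw [hx]; exact hz) (φ := fun _ _ => 1)
    (fun _ _ _ => zero_le_one)
  simpa only [pm_one, one_mul] using key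

/-- Products of nonnegative linear functionals. -/
theorem md_mom (h : Cmp V I J m σ) {D U : Set Hg} (hD : IsLowerSet D) (hU : IsUpperSet U)
    (hn : (Cfg V I ∩ {g | md m g ∈ D}).Nonempty) (hn' : (Cfg V J ∩ {g | md m g ∈ U}).Nonempty)
    {k : ℕ} {Z : Finset Pt} (hZ : ∀ x ∈ Z, x ∈ nb V) {φ : Fin k → Pt → ℝ}
    (hφ : ∀ i, ∀ x ∈ Z, 0 ≤ φ i x) :
    Ex (Cfg V I ∩ {g | md m g ∈ D}) (pm m σ Z φ) ≤
      Ex (Cfg V J ∩ {g | md m g ∈ U}) (pm m σ Z φ) := by
  have key := md_le h hD hU hn hn' (B := fun _ => 1) (fun _ => zero_le_one)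
    (fun _ _ _ => le_rfl) hZ hφ
  simpa only [one_mul] using key

/-! ### Without conditioning -/

theorem inter_univ_md (S : Set Hg) (m : ℤ) : S ∩ {g | md m g ∈ (univ : Set Hg)} = S := by
  ext g; simp

theorem md_mean0 (h : Cmp V I J m σ) {z : Pt} (hz : z ∈ nb V) :
    Ex (Cfg V I) (fun g => ((σ * (g z - m) : ℤ) : ℝ)) ≤
      Ex (Cfg V J) (fun g => ((σ * (g z - m) : ℤ) : ℝ)) := by
  have := md_mean h (D := univ) (U := univ) isLowerSet_univ isUpperSet_univ
    (by rw [inter_univ_md]; exact h.ne) (by rw [inter_univ_md]; exact h.ne') hz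
  simpa only [inter_univ_md] using this

theorem md_mom0 (h : Cmp V I J m σ) {k : ℕ} {Z : Finset Pt} (hZ : ∀ x ∈ Z, x ∈ nb V)
    {φ : Fin k → Pt → ℝ} (hφ : ∀ i, ∀ x ∈ Z, 0 ≤ φ i x) :
    Ex (Cfg V I) (pm m σ Z φ) ≤ Ex (Cfg V J) (pm m σ Z φ) := by
  have := md_mom h (D := univ) (U := univ) isLowerSet_univ isUpperSet_univ
    (by rw [inter_univ_md]; exact h.ne) (by rw [inter_univ_md]; exact h.ne') hZ hφ
  simpa only [inter_univ_md] using this

theorem md_Pr_mono0 (h : Cmp V I J m σ) {A : Set Hg} (hA : IsUpperSet A) :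
    Pr (Cfg V I) {g | md m g ∈ A} ≤ Pr (Cfg V J) {g | md m g ∈ A} := by
  have := md_Pr_mono h (D := univ) (U := univ) isLowerSet_univ isUpperSet_univ
    (by rw [inter_univ_md]; exact h.ne) (by rw [inter_univ_md]; exact h.ne') hA
  simpa only [inter_univ_md] using this

theorem md_Pr_anti0 (h : Cmp V I J m σ) {A : Set Hg} (hA : IsLowerSet A) :
    Pr (Cfg V J) {g | md m g ∈ A} ≤ Pr (Cfg V I) {g | md m g ∈ A} := by
  have := md_Pr_anti h (D := univ) (U := univ) isLowerSet_univ isUpperSet_univ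
    (by rw [inter_univ_md]; exact h.ne) (by rw [inter_univ_md]; exact h.ne') hA
  simpa only [inter_univ_md] using this

/-! ### One ensemble: association -/

/-- Data allowed at the level `m` with the sign `σ`. -/
structure Lv (V : Set Pt) (I : Pt → Set ℤ) (m σ : ℤ) : Prop where
  even : Even m
  sg : σ = 1 ∨ σ = -1
  dI : Dat V I
  ne : (Cfg V I).Nonempty
  sd : ∀ x, Sd m σ (I x) ∨ (x ∉ nb V ∧ (I x).Subsingleton)

theorem SdLe.refl {S : Set ℤ} (h : Sd m σ S) : SdLe m σ S S :=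
  ⟨h, h, fun h => h, fun a ha hao b hb hbo _ => ⟨⟨b, hb, hbo, rfl⟩, ⟨a, ha, hao, rfl⟩⟩⟩

theorem Lv.cmp (h : Lv V I m σ) : Cmp V I I m σ where
  even := h.even
  sg := h.sg
  dI := h.dI
  dJ := h.dI
  fin := by simp
  ne := h.ne
  ne' := h.ne
  le := fun x => by
    rcases h.sd x with h1 | h1
    · exact Or.inl (SdLe.refl h1)
    · exact Or.inr ⟨h1.1, rfl, h1.2⟩

/-- Positive association of increasing events of the modulus. -/
theorem md_Pr_mul (h : Lv V I m σ) {A B : Set Hg} (hA : IsUpperSet A) (hB : IsUpperSet B) :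
    Pr (Cfg V I) {g | md m g ∈ A} * Pr (Cfg V I) {g | md m g ∈ B} ≤
      Pr (Cfg V I) {g | md m g ∈ A ∩ B} := by
  have fI := Cfg_finite h.dI
  rcases (Cfg V I ∩ {g | md m g ∈ B}).eq_empty_or_nonempty with h0 | h0
  · have : Pr (Cfg V I) {g | md m g ∈ B} = 0 := by unfold Pr; rw [h0]; simp
    rw [this, mul_zero]
    exact Pr_nonneg _ _
  · have key := md_Pr_mono h.cmp (D := univ) (U := B) isLowerSet_univ hB
      (by rw [inter_univ_md]; exact h.ne) h0 hA
    rw [inter_univ_md, Pr_eq_Ex (fI.inter_of_left _)] at key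
    have h2 := Ex_inter_mul fI {g | md m g ∈ B} (ind {g | md m g ∈ A})
    have h3 : Pr (Cfg V I) {g | md m g ∈ A ∩ B} =
        Ex (Cfg V I) (fun a => ind {g | md m g ∈ B} a * ind {g | md m g ∈ A} a) := by
      rw [Pr_eq_Ex fI]
      refine Ex_congr fun g _ => ?_
      unfold ind
      by_cases h5 : md m g ∈ A <;> by_cases h6 : md m g ∈ B <;> simp [h5, h6]
    rw [h3, ← h2, mul_comm]
    exact mul_le_mul_of_nonneg_left key (Pr_nonneg _ _)

/-- Positive association of decreasing events of the modulus. -/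
theorem md_Pr_mul_anti (h : Lv V I m σ) {A B : Set Hg} (hA : IsLowerSet A) (hB : IsLowerSet B) :
    Pr (Cfg V I) {g | md m g ∈ A} * Pr (Cfg V I) {g | md m g ∈ B} ≤
      Pr (Cfg V I) {g | md m g ∈ A ∩ B} := by
  have fI := Cfg_finite h.dI
  rcases (Cfg V I ∩ {g | md m g ∈ B}).eq_empty_or_nonempty with h0 | h0
  · have : Pr (Cfg V I) {g | md m g ∈ B} = 0 := by unfold Pr; rw [h0]; simp
    rw [this, mul_zero]
    exact Pr_nonneg _ _
  · have key := md_Pr_anti h.cmp (D := B) (U := univ) hB isUpperSet_univ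
      h0 (by rw [inter_univ_md]; exact h.ne) hA
    rw [inter_univ_md, Pr_eq_Ex (fI.inter_of_left _)] at key
    have h2 := Ex_inter_mul fI {g | md m g ∈ B} (ind {g | md m g ∈ A})
    have h3 : Pr (Cfg V I) {g | md m g ∈ A ∩ B} =
        Ex (Cfg V I) (fun a => ind {g | md m g ∈ B} a * ind {g | md m g ∈ A} a) := by
      rw [Pr_eq_Ex fI]
      refine Ex_congr fun g _ => ?_
      unfold ind
      by_cases h5 : md m g ∈ A <;> by_cases h6 : md m g ∈ B <;> simp [h5, h6]
    rw [h3, ← h2, mul_comm]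
    exact mul_le_mul_of_nonneg_left key (Pr_nonneg _ _)

/-! ### Examples of ordered data -/

theorem sg_ne_neg (h : σ = 1 ∨ σ = -1) : σ ≠ 0 := by
  rcases h with h | h <;> rw [h] <;> norm_num

/-- Free data are symmetric. -/
theorem Sd_free (m σ : ℤ) : Sd m σ {m - 1, m + 1} := by
  right
  intro a ha _
  simp only [Set.mem_insert_iff, Set.mem_singleton_iff] at ha ⊢
  omega

theorem Sd_univ (m σ : ℤ) : Sd m σ univ := Or.inr fun _ _ _ => Set.mem_univ _

/-- Free data are the smallest. -/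
theorem SdLe_free (hm : Even m) (hs : σ = 1 ∨ σ = -1) {T : Set ℤ} (hT : Sd m σ T) :
    SdLe m σ {m - 1, m + 1} T := by
  refine ⟨Sd_free m σ, hT, fun h => ?_, fun a ha _ b _ hbo hlt => ?_⟩
  · exfalso
    have h1 := h (m - 1) (by simp) (hm.sub_odd odd_one)
    have h2 := h (m + 1) (by simp) (hm.add_odd odd_one)
    rcases hs with h3 | h3 <;> rw [h3] at h1 h2 <;> omega
  · exfalso
    have h1 : |a - m| = 1 := by
      simp only [Set.mem_insert_iff, Set.mem_singleton_iff] at ha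
      rcases ha with rfl | rfl
      · rw [show m - 1 - m = -1 by ring]; rfl
      · rw [show m + 1 - m = 1 by ring]; rfl
    have h2 := K.one_le_abs (hbo.sub_even hm)
    omega

/-- A fixed value on the side `σ`, or at distance one. -/
theorem Sd_single {c : ℤ} (h : 0 < σ * (c - m)) : Sd m σ {c} := by
  left
  intro a ha _
  rw [Set.mem_singleton_iff] at ha
  rw [ha]; exact h

/-- Intersection with a symmetric condition on the modulus. -/
theorem Sd.inter {S : Set ℤ} (h : Sd m σ S) (Q : ℤ → Prop) :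
    Sd m σ (S ∩ {a | Q |a - m|}) := by
  rcases h with h | h
  · exact Or.inl fun a ha hao => h a ha.1 hao
  · refine Or.inr fun a ha hao => ⟨h a ha.1 hao, ?_⟩
    have e : 2 * m - a - m = -(a - m) := by ring
    show Q |2 * m - a - m|
    rw [e, abs_neg]
    exact ha.2

/-- The constraint `|h - m| = 1` makes the data smaller. -/
theorem SdLe_close (hm : Even m) {S : Set ℤ} (hS : Sd m σ S) :
    SdLe m σ (S ∩ {a | |a - m| = 1}) S ∨ ¬ ∃ a ∈ S, |a - m| = 1 := by
  by_cases hex : ∃ a ∈ S, |a - m| = 1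
  · left
    obtain ⟨a0, ha0, hae⟩ := hex
    have ho : Odd a0 := by
      obtain ⟨r, hr⟩ := hm
      rcases abs_cases (a0 - m) with ⟨h1, _⟩ | ⟨h1, _⟩
      · exact ⟨r, by omega⟩
      · exact ⟨r - 1, by omega⟩
    refine ⟨hS.inter (fun n => n = 1), hS, fun h => ?_, fun a ha _ b _ hbo hlt => ?_⟩
    · rcases hS with h1 | h1
      · exact h1
      · exfalso
        have h2 := h a0 ⟨ha0, hae⟩ ho
        have e : 2 * m - a0 - m = -(a0 - m) := by ring
        have h3 := h (2 * m - a0) ⟨h1 a0 ha0 ho, by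
          show |2 * m - a0 - m| = 1
          rw [e, abs_neg]; exact hae⟩ ((even_two_mul m).sub_odd ho)
        rw [e, mul_neg] at h3
        omega
    · exfalso
      have h1 : |a - m| = 1 := ha.2
      have h2 := K.one_le_abs (hbo.sub_even hm)
      omega
  · exact Or.inr hex

/-- A lower bound for the modulus makes the data larger. -/
theorem SdLe_far {S : Set ℤ} (hS : Sd m σ S) (n : ℤ) :
    SdLe m σ S (S ∩ {a | n ≤ |a - m|}) := by
  refine ⟨hS, hS.inter (fun k => n ≤ k), fun h a ha hao => h a ha.1 hao,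
    fun a ha hao b hb hbo hlt => ⟨⟨b, hb.1, hbo, rfl⟩, ⟨a, ⟨ha, ?_⟩, hao, rfl⟩⟩⟩
  have : n ≤ |b - m| := hb.2
  show n ≤ |a - m|
  omega

/-- An upper bound for the modulus makes the data smaller, if the wired sites are the same. -/
theorem SdLe_near {S : Set ℤ} (hS : Sd m σ S) (n : ℤ)
    (hw : Wr m σ (S ∩ {a | |a - m| ≤ n}) → Wr m σ S) :
    SdLe m σ (S ∩ {a | |a - m| ≤ n}) S := by
  refine ⟨hS.inter (fun k => k ≤ n), hS, hw,
    fun a ha hao b hb hbo hlt => ⟨⟨b, ⟨hb, ?_⟩, hbo, rfl⟩, ⟨a, ha.1, hao, rfl⟩⟩⟩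
  have : |a - m| ≤ n := ha.2
  show |b - m| ≤ n
  omega

/-- Wiring: keep only the side `σ` of symmetric data. -/
theorem SdLe_wire (hs : σ = 1 ∨ σ = -1) {S : Set ℤ} (hm : Even m)
    (hS : ∀ a ∈ S, Odd a → 2 * m - a ∈ S) : SdLe m σ S (S ∩ {a | 0 < σ * (a - m)}) := by
  have flip : ∀ a ∈ S, Odd a → ∃ b ∈ S ∩ {a | 0 < σ * (a - m)}, Odd b ∧ |b - m| = |a - m| := by
    intro a ha hao
    have hne : a - m ≠ 0 := by
      obtain ⟨r, hr⟩ := hao
      obtain ⟨q, hq⟩ := hm
      omega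
    have e : 2 * m - a - m = -(a - m) := by ring
    rcases lt_or_gt_of_ne hne with h1 | h1
    · rcases hs with rfl | rfl
      · exact ⟨2 * m - a, ⟨hS a ha hao, by show 0 < 1 * (2 * m - a - m); omega⟩,
          (even_two_mul m).sub_odd hao, by rw [e, abs_neg]⟩
      · exact ⟨a, ⟨ha, by show 0 < -1 * (a - m); omega⟩, hao, rfl⟩
    · rcases hs with rfl | rfl
      · exact ⟨a, ⟨ha, by show 0 < 1 * (a - m); omega⟩, hao, rfl⟩
      · exact ⟨2 * m - a, ⟨hS a ha hao, by show 0 < -1 * (2 * m - a - m); omega⟩,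
          (even_two_mul m).sub_odd hao, by rw [e, abs_neg]⟩
  refine ⟨Or.inr hS, Or.inl fun a ha _ => ha.2, fun _ a ha _ => ha.2,
    fun a ha hao b hb hbo _ => ⟨⟨b, hb.1, hbo, rfl⟩, flip a ha hao⟩⟩

/-- Fixed values on the side `σ`. -/
theorem SdLe_single {c c' : ℤ} (h : 0 < σ * (c - m)) (h' : 0 < σ * (c' - m))
    (hc : |c - m| ≤ |c' - m|) : SdLe m σ {c} {c'} := by
  refine ⟨Sd_single h, Sd_single h', fun _ a ha _ => ?_, fun a ha _ b hb _ hlt => ?_⟩
  · rw [Set.mem_singleton_iff] at ha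
    rw [ha]; exact h'
  · exfalso
    rw [Set.mem_singleton_iff] at ha hb
    rw [ha, hb] at hlt
    omega

end Vale.Agent.P153.R2
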