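import Vale.Agent.P153.R2.FKGK.Pos

/-!
# P153-R2, block FKGK: the law on a smaller domain as a frozen law on a larger domain
-/

namespace Vale.Agent.P153.R2

open Set Relation
open Vale.Agent.P153
open Vale.Agent.P153.Topo (Conn)
open scoped Classical

variable {V : Set Pt} {I J : Pt → Set ℤ} {m σ : ℤ}

/-- If the data are everything on `B`, and `{-1, 1}` on the other vertices of `nb V`, the law on `V`
is the law on `B` with free data. -/
theorem Ex_box {B : Set Pt} (hB : B ⊆ V) (dI : Dat V I) (hm : Even m)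
    (h1 : ∀ x ∈ B, I x = univ) (h2 : ∀ x ∈ nb V, x ∉ B → I x = {m - 1, m + 1})
    (hn : (Cfg V I).Nonempty) {F : Hg → ℝ}
    (hF : ∀ a b : Hg, (∀ x ∈ nb B, a x = b x) → F a = F b) :
    Ex (Cfg V I) F = Ex (Cfg B (frd B m)) F := by
  have hBf : B.Finite := dI.fin.subset hB
  have e1 : Cfg V I = Cfg (V \ (V \ B)) I := by
    refine Cfg_cut (m := m) (fun x hx => ?_) (fun x hx y hy hyN hxy => ?_)
    · rw [h2 x (Or.inl hx.1) hx.2]
    · have hyB : y ∉ B := fun h => hy (hB h)
      rw [h2 y (Tr.mem_nb_of_left hx.1 hxy).2 hyB]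
  have e2 : V \ (V \ B) = B := by
    ext x
    constructor
    · rintro ⟨h3, h4⟩
      by_contra h5
      exact h4 ⟨h3, h5⟩
    · intro h3
      exact ⟨hB h3, fun h4 => h4.2 h3⟩
  have dI' : Dat B I := by
    refine ⟨hBf, fun x hx => ?_, dI.cof⟩
    by_cases hxV : x ∈ V
    · rw [h2 x (Or.inl hxV) hx]
      exact Set.toFinite _
    · exact dI.bdd x hxV
  have dJ' : Dat B (frd B m) := by
    refine ⟨hBf, fun x hx => ?_, ?_⟩
    · unfold frd
      rw [if_neg hx]
      split_ifs
      · exact Set.toFinite _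
      · exact Set.finite_singleton _
    · refine (nb_finite hBf).subset fun x hx => ?_
      by_contra hxn
      apply hx
      unfold frd
      have hxB : x ∉ B := fun h => hxn (Or.inl h)
      have hxe : x ∉ ebd B := fun h => hxn (Or.inr h)
      rw [if_neg hxB, if_neg hxe]
      exact Set.subsingleton_singleton
  rw [e1, e2] at hn ⊢
  refine Ex_off dI' dJ' (fun x hx => ?_) hn ?_ hF
  · unfold frd
    by_cases hxB : x ∈ B
    · rw [if_pos hxB, h1 x hxB]
    · have hxe : x ∈ ebd B := hx.resolve_left hxB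
      rw [if_neg hxB, if_pos hxe]
      obtain ⟨-, y, hy, hyx⟩ := hxe
      exact h2 x (Tr.mem_nb_of_left (hB hy) hyx).2 hxB
  · refine ⟨fun _ => m + 1, fun x => hm.add_odd odd_one, fun x => ?_, fun x _ y _ => by simp⟩
    show m + 1 ∈ frd B m x
    unfold frd
    split_ifs
    · exact Set.mem_univ _
    · simp
    · simp

end Vale.Agent.P153.R2
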