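import Vale.Agent.P153.Bd5.B1

/-!
# P153, R2, block FKGK: association of the modulus with wired one-sign data

Odd heights on a finite set `V` of sites with a symmetric relation `R`, steps at most two along
`R` inside `V`, dummy value `1` off `V`. Data: bounds `lo x ≤ |h x| ≤ hi x` and a set `P` of
(wired) sites on which the height is positive. An edge is closed if both ends have modulus one.
The modulus is positively associated, together with the products of nonnegative linear functionals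
of the heights, and everything increases with `lo`, `hi` and `P` (`master`).
-/

namespace Vale.Agent.P153.R2.K

open Finset Relation Vale.Agent.P153
open scoped Classical

variable {W : Type*} {R : W → W → Prop} {V : Finset W}

/-- Odd heights on `V`, steps at most two, dummy value `1` off `V`. -/
structure Ht (R : W → W → Prop) (V : Finset W) (h : W → ℤ) : Prop where
  off : ∀ x, x ∉ V → h x = 1
  odd : ∀ x, Odd (h x)
  lip : ∀ x ∈ V, ∀ y ∈ V, R x y → |h x - h y| ≤ 2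

theorem Ht.inf {a a' : W → ℤ} (h : Ht R V a) (h' : Ht R V a') : Ht R V (a ⊓ a') := by
  refine ⟨fun x hx => ?_, fun x => ?_, fun x hx y hy hxy => ?_⟩
  · simp [h.off x hx, h'.off x hx]
  · rcases min_choice (a x) (a' x) with h1 | h1
    · simpa [h1] using h.odd x
    · simpa [h1] using h'.odd x
  · exact (abs_min_sub_min_le_max (a x) (a' x) (a y) (a' y)).trans
      (max_le (h.lip x hx y hy hxy) (h'.lip x hx y hy hxy))

theorem Ht.sup {a a' : W → ℤ} (h : Ht R V a) (h' : Ht R V a') : Ht R V (a ⊔ a') := by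
  refine ⟨fun x hx => ?_, fun x => ?_, fun x hx y hy hxy => ?_⟩
  · simp [h.off x hx, h'.off x hx]
  · rcases max_choice (a x) (a' x) with h1 | h1
    · simpa [h1] using h.odd x
    · simpa [h1] using h'.odd x
  · exact (abs_max_sub_max_le_max (a x) (a' x) (a y) (a' y)).trans
      (max_le (h.lip x hx y hy hxy) (h'.lip x hx y hy hxy))

/-- Modulus. -/
def ab (h : W → ℤ) : W → ℤ := fun x => |h x|

/-- Heights with given signs and modulus. -/
def sm (s : W → ℤˣ) (a : W → ℤ) : W → ℤ := fun x => (s x : ℤ) * a x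

/-- The sign of an integer as a unit. -/
def sn (n : ℤ) : ℤˣ := if n < 0 then -1 else 1

theorem sn_mul_abs (n : ℤ) : (sn n : ℤ) * |n| = n := by
  unfold sn
  split_ifs with h
  · simp [abs_of_neg h]
  · push Not at h
    simp [abs_of_nonneg h]

theorem sn_units_mul (u : ℤˣ) {n : ℤ} (hn : 1 ≤ n) : sn ((u : ℤ) * n) = u := by
  unfold sn
  rcases Int.units_eq_one_or u with h1 | h1
  · subst h1
    have : ¬ n < 0 := by omega
    simp [this]
  · subst h1
    have : (0 : ℤ) < n := by omega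
    simp [this]

theorem abs_units (u : ℤˣ) {n : ℤ} (hn : 0 ≤ n) : |(u : ℤ) * n| = n := by
  rcases Int.units_eq_one_or u with h1 | h1 <;> subst h1 <;> simp [abs_of_nonneg hn]

theorem ab_sm {a : W → ℤ} (s : W → ℤˣ) (ha : ∀ x, 1 ≤ a x) : ab (sm s a) = a := by
  funext x
  exact abs_units (s x) (by linarith [ha x])

theorem one_le_abs {n : ℤ} (h : Odd n) : 1 ≤ |n| := by
  obtain ⟨m, rfl⟩ := h
  rcases abs_cases (2 * m + 1) with ⟨h1, h2⟩ | ⟨h1, h2⟩ <;> omega

theorem odd_abs {n : ℤ} (h : Odd n) : Odd |n| := by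
  rcases abs_choice n with h1 | h1 <;> rw [h1]
  · exact h
  · exact h.neg

/-! ### Data -/

/-- Data: bounds for the modulus and the wired sites. -/
structure Dt (W : Type*) where
  lo : W → ℤ
  hi : W → ℤ
  P : Set W

/-- `E` is below `E'` on `V`. -/
structure Dt.Le (V : Finset W) (E E' : Dt W) : Prop where
  lo : ∀ x ∈ V, E.lo x ≤ E'.lo x
  hi : ∀ x ∈ V, E.hi x ≤ E'.hi x
  P : ∀ x ∈ V, x ∈ E.P → x ∈ E'.P

theorem Dt.Le.rfl {E : Dt W} : Dt.Le V E E := ⟨fun _ _ => le_rfl, fun _ _ => le_rfl, fun _ _ h => h⟩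

/-- The configurations. -/
structure Cs (R : W → W → Prop) (V : Finset W) (E : Dt W) (h : W → ℤ) : Prop where
  ht : Ht R V h
  lo : ∀ x ∈ V, E.lo x ≤ |h x|
  hi : ∀ x ∈ V, |h x| ≤ E.hi x
  P : ∀ x ∈ V, x ∈ E.P → 0 < h x

/-- The moduli. -/
structure As (R : W → W → Prop) (V : Finset W) (E : Dt W) (a : W → ℤ) : Prop where
  ht : Ht R V a
  one : ∀ x, 1 ≤ a x
  lo : ∀ x ∈ V, E.lo x ≤ a x
  hi : ∀ x ∈ V, a x ≤ E.hi x

theorem finite_box (V : Finset W) (N : W → ℤ) :
    {h : W → ℤ | (∀ x, x ∉ V → h x = 1) ∧ ∀ x ∈ V, |h x| ≤ N x}.Finite := by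
  have : Finite (∀ x : V, Set.Icc (-N x) (N x)) := inferInstance
  refine Set.Finite.of_finite_image (f := fun h => fun x : V => h x) ?_ ?_
  · refine (Set.Finite.pi' (fun x : V => Set.finite_Icc (-N x) (N x))).subset ?_
    rintro _ ⟨h, ⟨-, h2⟩, rfl⟩ x
    exact ⟨(abs_le.1 (h2 x x.2)).1, (abs_le.1 (h2 x x.2)).2⟩
  · rintro h ⟨h1, -⟩ h' ⟨h1', -⟩ e
    funext x
    by_cases hx : x ∈ V
    · exact congrFun e ⟨x, hx⟩
    · rw [h1 x hx, h1' x hx]

theorem finite_Cs (R : W → W → Prop) (V : Finset W) (E : Dt W) : {h | Cs R V E h}.Finite :=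
  (finite_box V E.hi).subset fun _ h => ⟨h.ht.off, h.hi⟩

theorem finite_As (R : W → W → Prop) (V : Finset W) (E : Dt W) : {h | As R V E h}.Finite :=
  (finite_box V E.hi).subset fun a h => ⟨h.ht.off, fun x hx => by
    rw [abs_of_nonneg (by linarith [h.one x])]; exact h.hi x hx⟩

/-- The finite set of the configurations. -/
noncomputable def CF (R : W → W → Prop) (V : Finset W) (E : Dt W) : Finset (W → ℤ) :=
  (finite_Cs R V E).toFinset

/-- The finite set of the moduli. -/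
noncomputable def AF (R : W → W → Prop) (V : Finset W) (E : Dt W) : Finset (W → ℤ) :=
  (finite_As R V E).toFinset

variable {E E' : Dt W}

theorem mem_CF {h : W → ℤ} : h ∈ CF R V E ↔ Cs R V E h := by simp [CF]

theorem mem_AF {h : W → ℤ} : h ∈ AF R V E ↔ As R V E h := by simp [AF]

/-! ### Signs -/

/-- The signs compatible with the modulus. -/
def SG (R : W → W → Prop) (V : Finset W) (P : Set W) (a : W → ℤ) : Subgroup (W → ℤˣ) where
  carrier := {s | (∀ x, x ∉ V → s x = 1) ∧ (∀ x ∈ V, x ∈ P → s x = 1) ∧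
    ∀ x ∈ V, ∀ y ∈ V, R x y → ¬ (a x ≤ 1 ∧ a y ≤ 1) → s x = s y}
  mul_mem' := by
    rintro s t ⟨h1, h2, h3⟩ ⟨k1, k2, k3⟩
    refine ⟨fun x hx => ?_, fun x hx hp => ?_, fun x hx y hy hxy h => ?_⟩
    · simp [h1 x hx, k1 x hx]
    · simp [h2 x hx hp, k2 x hx hp]
    · simp [h3 x hx y hy hxy h, k3 x hx y hy hxy h]
  one_mem' := ⟨fun _ _ => rfl, fun _ _ _ => rfl, fun _ _ _ _ _ _ => rfl⟩
  inv_mem' := by
    rintro s ⟨h1, h2, h3⟩
    refine ⟨fun x hx => ?_, fun x hx hp => ?_, fun x hx y hy hxy h => ?_⟩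
    · simp [h1 x hx]
    · simp [h2 x hx hp]
    · simp [h3 x hx y hy hxy h]

theorem mem_SG {P : Set W} {a : W → ℤ} {s : W → ℤˣ} : s ∈ SG R V P a ↔
    (∀ x, x ∉ V → s x = 1) ∧ (∀ x ∈ V, x ∈ P → s x = 1) ∧
    ∀ x ∈ V, ∀ y ∈ V, R x y → ¬ (a x ≤ 1 ∧ a y ≤ 1) → s x = s y := Iff.rfl

theorem SG_anti {P P' : Set W} (hP : ∀ x ∈ V, x ∈ P → x ∈ P') {a a' : W → ℤ} (h : a ≤ a') :
    SG R V P' a' ≤ SG R V P a := by
  rintro s ⟨h1, h2, h3⟩
  refine ⟨h1, fun x hx hp => h2 x hx (hP x hx hp), fun x hx y hy hxy hne => ?_⟩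
  refine h3 x hx y hy hxy ?_
  rintro ⟨k1, k2⟩
  exact hne ⟨(h x).trans k1, (h y).trans k2⟩

theorem SG_inf {P P' : Set W} (hP : ∀ x ∈ V, x ∈ P → x ∈ P') (a a' : W → ℤ) :
    SG R V P a ⊓ SG R V P' a' = SG R V P' (a ⊔ a') := by
  ext s
  rw [Subgroup.mem_inf, mem_SG, mem_SG, mem_SG]
  constructor
  · rintro ⟨⟨h1, -, h3⟩, ⟨-, k2, k3⟩⟩
    refine ⟨h1, k2, fun x hx y hy hxy h => ?_⟩
    by_cases h5 : a x ≤ 1 ∧ a y ≤ 1
    · apply k3 x hx y hy hxy
      rintro ⟨h6, h7⟩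
      apply h
      simp only [Pi.sup_apply, sup_le_iff]
      exact ⟨⟨h5.1, h6⟩, ⟨h5.2, h7⟩⟩
    · exact h3 x hx y hy hxy h5
  · rintro ⟨h1, h2, h3⟩
    refine ⟨⟨h1, fun x hx hp => h2 x hx (hP x hx hp), fun x hx y hy hxy h => ?_⟩,
      ⟨h1, h2, fun x hx y hy hxy h => ?_⟩⟩
    · refine h3 x hx y hy hxy ?_
      rintro ⟨k1, k2⟩
      simp only [Pi.sup_apply, sup_le_iff] at k1 k2
      exact h ⟨k1.1, k2.1⟩
    · refine h3 x hx y hy hxy ?_
      rintro ⟨k1, k2⟩
      simp only [Pi.sup_apply, sup_le_iff] at k1 k2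
      exact h ⟨k1.2, k2.2⟩

theorem finite_SGs (P : Set W) (a : W → ℤ) : ((SG R V P a : Set (W → ℤˣ))).Finite := by
  refine Set.Finite.of_finite_image (f := fun s => fun x : V => s x) (Set.toFinite _) ?_
  rintro s hs s' hs' e
  funext x
  by_cases hx : x ∈ V
  · exact congrFun e ⟨x, hx⟩
  · rw [(mem_SG.1 hs).1 x hx, (mem_SG.1 hs').1 x hx]

theorem finite_SG (P : Set W) (a : W → ℤ) : Finite (SG R V P a) := (finite_SGs P a).to_subtype

/-- The number of the compatible signs. -/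
noncomputable def nSG (R : W → W → Prop) (V : Finset W) (P : Set W) (a : W → ℤ) : ℕ :=
  Nat.card (SG R V P a)

theorem nSG_mul {P P' : Set W} (hP : ∀ x ∈ V, x ∈ P → x ∈ P') (a a' : W → ℤ) :
    nSG R V P a * nSG R V P' a' ≤ nSG R V P (a ⊓ a') * nSG R V P' (a ⊔ a') := by
  have hf : Finite (SG R V P (a ⊓ a')) := finite_SG P _
  have h := card_mul_card_le (SG R V P a) (SG R V P' a') (SG R V P (a ⊓ a'))
    (SG_anti (fun _ _ h => h) inf_le_left) (SG_anti hP inf_le_right)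
  rw [SG_inf hP] at h
  unfold nSG
  rw [mul_comm (Nat.card (SG R V P (a ⊓ a')))]
  exact h

/-- Finset of the compatible signs. -/
noncomputable def SGF (R : W → W → Prop) (V : Finset W) (P : Set W) (a : W → ℤ) :
    Finset (W → ℤˣ) :=
  (finite_SGs (R := R) (V := V) P a).toFinset

theorem mem_SGF {P : Set W} {a : W → ℤ} {s : W → ℤˣ} : s ∈ SGF R V P a ↔ s ∈ SG R V P a := by
  simp [SGF]

theorem card_SGF (P : Set W) (a : W → ℤ) : #(SGF R V P a) = nSG R V P a := by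
  unfold SGF nSG
  rw [← Set.ncard_eq_toFinset_card _ (finite_SGs (R := R) (V := V) P a), ← Nat.card_coe_set_eq]
  rfl

theorem nSG_pos (P : Set W) (a : W → ℤ) : 0 < nSG R V P a := by
  have hf : Finite (SG R V P a) := finite_SG P _
  exact Nat.card_pos

/-- Decomposition into modulus and signs. -/
theorem sum_CF (F : (W → ℤ) → ℝ) :
    ∑ h ∈ CF R V E, F h = ∑ a ∈ AF R V E, ∑ s ∈ SGF R V E.P a, F (sm s a) := by
  rw [Finset.sum_sigma' (AF R V E) (fun a => SGF R V E.P a) (fun a s => F (sm s a))]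
  refine Finset.sum_nbij' (i := fun h => (⟨ab h, fun x => sn (h x)⟩ : (_ : W → ℤ) × (W → ℤˣ)))
    (j := fun p => sm p.2 p.1) ?_ ?_ ?_ ?_ ?_
  · intro h hh
    rw [mem_CF] at hh
    rw [Finset.mem_sigma]
    refine ⟨mem_AF.2 ⟨⟨fun x hx => ?_, fun x => odd_abs (hh.ht.odd x), fun x hx y hy hxy => ?_⟩,
      fun x => one_le_abs (hh.ht.odd x), hh.lo, hh.hi⟩, mem_SGF.2 (mem_SG.2 ⟨fun x hx => ?_,
        fun x hx hp => ?_, fun x hx y hy hxy hne => ?_⟩)⟩
    · show |h x| = 1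
      rw [hh.ht.off x hx]; rfl
    · exact (abs_abs_sub_abs_le (h x) (h y)).trans (hh.ht.lip x hx y hy hxy)
    · show sn (h x) = 1
      rw [hh.ht.off x hx]; rfl
    · have := hh.P x hx hp
      have h2 : ¬ h x < 0 := by omega
      simp [sn, h2]
    · have hd := abs_le.1 (hh.ht.lip x hx y hy hxy)
      have o1 := hh.ht.odd x
      have o2 := hh.ht.odd y
      show sn (h x) = sn (h y)
      change ¬ (|h x| ≤ 1 ∧ |h y| ≤ 1) at hne
      unfold sn
      obtain ⟨m1, e1⟩ := o1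
      obtain ⟨m2, e2⟩ := o2
      by_cases h5 : h x < 0 <;> by_cases h6 : h y < 0
      · rw [if_pos h5, if_pos h6]
      · exfalso
        apply hne
        rw [abs_of_neg h5, abs_of_nonneg (not_lt.1 h6)]
        omega
      · exfalso
        apply hne
        rw [abs_of_neg h6, abs_of_nonneg (not_lt.1 h5)]
        omega
      · rw [if_neg h5, if_neg h6]
  · rintro ⟨a, s⟩ hp
    obtain ⟨ha, hs⟩ := Finset.mem_sigma.1 hp
    simp only at ha hs
    rw [mem_AF] at ha
    rw [mem_SGF, mem_SG] at hs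
    have habs : ∀ x, |sm s a x| = a x := fun x => abs_units (s x) (by linarith [ha.one x])
    refine mem_CF.2 ⟨⟨fun x hx => ?_, fun x => ?_, fun x hx y hy hxy => ?_⟩, fun x hx => ?_,
      fun x hx => ?_, fun x hx hP => ?_⟩
    · show (s x : ℤ) * a x = 1
      rw [hs.1 x hx, ha.ht.off x hx]; rfl
    · show Odd ((s x : ℤ) * a x)
      rcases Int.units_eq_one_or (s x) with h3 | h3
      · simpa [h3] using ha.ht.odd x
      · simpa [h3] using ha.ht.odd x
    · show |(s x : ℤ) * a x - (s y : ℤ) * a y| ≤ 2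
      have h0 := ha.one x
      have h0' := ha.one y
      by_cases hc : a x ≤ 1 ∧ a y ≤ 1
      · rcases Int.units_eq_one_or (s x) with h3 | h3 <;>
          rcases Int.units_eq_one_or (s y) with h4 | h4 <;>
          simp only [h3, h4, Units.val_neg, Units.val_one] <;> rw [abs_le] <;> omega
      · have h3 := hs.2.2 x hx y hy hxy hc
        have h4 := abs_le.1 (ha.ht.lip x hx y hy hxy)
        rcases Int.units_eq_one_or (s y) with h5 | h5 <;>
          simp only [h3, h5, Units.val_neg, Units.val_one] <;> rw [abs_le] <;> omega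
    · show E.lo x ≤ |sm s a x|
      rw [habs]; exact ha.lo x hx
    · show |sm s a x| ≤ E.hi x
      rw [habs]; exact ha.hi x hx
    · show 0 < (s x : ℤ) * a x
      rw [hs.2.1 x hx hP]
      have := ha.one x
      simp only [Units.val_one]
      omega
  · intro h _
    funext x
    exact sn_mul_abs _
  · rintro ⟨a, s⟩ hp
    obtain ⟨ha, -⟩ := Finset.mem_sigma.1 hp
    rw [mem_AF] at ha
    have h3 : ab (sm s a) = a := ab_sm s ha.one
    have h4 : (fun x => sn (sm s a x)) = s := by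
      funext x
      exact sn_units_mul (s x) (ha.one x)
    simp only [h3, h4]
  · intro h _
    have : sm (fun x => sn (h x)) (ab h) = h := by
      funext x
      exact sn_mul_abs _
    simp only [this]

/-! ### Moments -/

/-- Product of linear functionals. -/
noncomputable def pl {k : ℕ} (I : Finset W) (φ : Fin k → W → ℝ) (h : W → ℤ) : ℝ :=
  ∏ i, ∑ x ∈ I, φ i x * (h x : ℝ)

/-- Moments of the signs. -/
theorem sum_SGF_prod {k : ℕ} (P : Set W) (a : W → ℤ) (f : Fin k → W) :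
    ∑ s ∈ SGF R V P a, ∏ i, (((s (f i) : ℤˣ) : ℤ) : ℝ)
      = if (∀ s ∈ SG R V P a, ∏ i, s (f i) = 1) then (nSG R V P a : ℝ) else 0 := by
  have hprod : ∀ s : W → ℤˣ, ∏ i, (((s (f i) : ℤˣ) : ℤ) : ℝ) =
      (((∏ i, s (f i) : ℤˣ) : ℤ) : ℝ) := by
    intro s
    push_cast
    rfl
  split_ifs with h
  · rw [← card_SGF, Finset.card_eq_sum_ones, Nat.cast_sum]
    apply Finset.sum_congr rfl
    intro s hs
    rw [hprod, h s (mem_SGF.1 hs)]
    simp
  · push Not at h
    obtain ⟨t, ht, hxy⟩ := h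
    have ht1 : ∏ i, t (f i) = -1 := by
      rcases Int.units_eq_one_or (∏ i, t (f i)) with h1 | h1
      · exact absurd h1 hxy
      · exact h1
    have key : ∑ s ∈ SGF R V P a, ∏ i, (((s (f i) : ℤˣ) : ℤ) : ℝ)
        = ∑ s ∈ SGF R V P a, ∏ i, ((((t * s) (f i) : ℤˣ) : ℤ) : ℝ) := by
      symm
      apply Finset.sum_nbij' (fun s => t * s) (fun s => t⁻¹ * s)
      · intro s hs
        exact mem_SGF.2 (mul_mem ht (mem_SGF.1 hs))
      · intro s hs
        exact mem_SGF.2 (mul_mem (inv_mem ht) (mem_SGF.1 hs))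
      · intro s _; simp
      · intro s _; simp
      · intro s _; rfl
    have key2 : ∀ s ∈ SGF R V P a, ∏ i, ((((t * s) (f i) : ℤˣ) : ℤ) : ℝ)
        = - ∏ i, (((s (f i) : ℤˣ) : ℤ) : ℝ) := by
      intro s _
      rw [hprod, hprod]
      have : ∏ i, (t * s) (f i) = - ∏ i, s (f i) := by
        simp only [Pi.mul_apply, Finset.prod_mul_distrib, ht1]
        simp only [neg_mul, one_mul]
      rw [this]
      push_cast
      ring
    rw [Finset.sum_congr rfl key2, Finset.sum_neg_distrib] at key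
    linarith only [key]

/-- The conditional expectation of `pl` given the modulus. -/
noncomputable def Fk {k : ℕ} (R : W → W → Prop) (V : Finset W) (P : Set W) (I : Finset W)
    (φ : Fin k → W → ℝ) (a : W → ℤ) : ℝ :=
  ∑ f ∈ Fintype.piFinset (fun _ : Fin k => I),
    (∏ i, φ i (f i) * ((max (a (f i)) 1 : ℤ) : ℝ)) *
      (if ∀ s ∈ SG R V P a, ∏ i, s (f i) = 1 then 1 else 0)

variable {k : ℕ} {I : Finset W} {φ : Fin k → W → ℝ}

theorem term_nonneg (hφ : ∀ i, ∀ x ∈ I, 0 ≤ φ i x) (a : W → ℤ) {f : Fin k → W}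
    (hf : f ∈ Fintype.piFinset (fun _ : Fin k => I)) :
    0 ≤ ∏ i, φ i (f i) * ((max (a (f i)) 1 : ℤ) : ℝ) := by
  refine Finset.prod_nonneg fun i _ => mul_nonneg (hφ i _ (Fintype.mem_piFinset.1 hf i)) ?_
  exact_mod_cast (zero_le_one.trans (le_max_right (a (f i)) 1))

theorem Fk_nonneg (hφ : ∀ i, ∀ x ∈ I, 0 ≤ φ i x) (P : Set W) (a : W → ℤ) :
    0 ≤ Fk R V P I φ a := by
  refine Finset.sum_nonneg fun f hf => mul_nonneg (term_nonneg hφ a hf) ?_
  split_ifs <;> norm_num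

theorem Fk_mono (hφ : ∀ i, ∀ x ∈ I, 0 ≤ φ i x) {P P' : Set W}
    (hP : ∀ x ∈ V, x ∈ P → x ∈ P') {a b : W → ℤ} (hab : a ≤ b) :
    Fk R V P I φ a ≤ Fk R V P' I φ b := by
  refine Finset.sum_le_sum fun f hf => ?_
  have h1 : ∏ i, φ i (f i) * ((max (a (f i)) 1 : ℤ) : ℝ) ≤
      ∏ i, φ i (f i) * ((max (b (f i)) 1 : ℤ) : ℝ) := by
    refine Finset.prod_le_prod (fun i _ => mul_nonneg (hφ i _ (Fintype.mem_piFinset.1 hf i)) ?_)
      fun i _ => mul_le_mul_of_nonneg_left ?_ (hφ i _ (Fintype.mem_piFinset.1 hf i))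
    · exact_mod_cast (zero_le_one.trans (le_max_right (a (f i)) 1))
    · exact_mod_cast max_le_max (hab (f i)) le_rfl
  by_cases h : ∀ s ∈ SG R V P a, ∏ i, s (f i) = 1
  · have h' : ∀ s ∈ SG R V P' b, ∏ i, s (f i) = 1 := fun s hs => h s (SG_anti hP hab hs)
    rw [if_pos h, if_pos h', mul_one, mul_one]
    exact h1
  · rw [if_neg h, mul_zero]
    refine mul_nonneg (term_nonneg hφ b hf) ?_
    split_ifs <;> norm_num

theorem sum_signs (P : Set W) (a : W → ℤ) (ha : ∀ x, 1 ≤ a x) :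
    ∑ s ∈ SGF R V P a, pl I φ (sm s a) = (nSG R V P a : ℝ) * Fk R V P I φ a := by
  have h1 : ∀ s : W → ℤˣ, pl I φ (sm s a) =
      ∑ f ∈ Fintype.piFinset (fun _ : Fin k => I),
        (∏ i, φ i (f i) * ((max (a (f i)) 1 : ℤ) : ℝ)) * ∏ i, (((s (f i) : ℤˣ) : ℤ) : ℝ) := by
    intro s
    unfold pl sm
    rw [Finset.prod_univ_sum]
    refine Finset.sum_congr rfl fun f _ => ?_
    rw [← Finset.prod_mul_distrib]
    refine Finset.prod_congr rfl fun i _ => ?_
    rw [max_eq_left (ha (f i))]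
    push_cast
    ring
  rw [Finset.sum_congr rfl fun s _ => h1 s, Finset.sum_comm]
  unfold Fk
  rw [Finset.mul_sum]
  refine Finset.sum_congr rfl fun f _ => ?_
  rw [← Finset.mul_sum, sum_SGF_prod]
  split_ifs <;> ring

theorem sum_CF_pl (X : (W → ℤ) → ℝ) :
    ∑ h ∈ CF R V E, X (ab h) * pl I φ h =
      ∑ a ∈ AF R V E, (nSG R V E.P a : ℝ) * X a * Fk R V E.P I φ a := by
  rw [sum_CF fun h => X (ab h) * pl I φ h]
  refine Finset.sum_congr rfl fun a ha => ?_
  have ha1 := (mem_AF.1 ha).one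
  have h1 : ∀ s ∈ SGF R V E.P a, X (ab (sm s a)) * pl I φ (sm s a) = X a * pl I φ (sm s a) := by
    intro s _
    rw [ab_sm s ha1]
  rw [Finset.sum_congr rfl h1, ← Finset.mul_sum, sum_signs E.P a ha1]
  ring

theorem sum_CF_ab (X : (W → ℤ) → ℝ) :
    ∑ h ∈ CF R V E, X (ab h) = ∑ a ∈ AF R V E, (nSG R V E.P a : ℝ) * X a := by
  rw [sum_CF fun h => X (ab h)]
  refine Finset.sum_congr rfl fun a ha => ?_
  have ha1 := (mem_AF.1 ha).one
  have h1 : ∀ s ∈ SGF R V E.P a, X (ab (sm s a)) = X a := by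
    intro s _
    rw [ab_sm s ha1]
  rw [Finset.sum_congr rfl h1, Finset.sum_const, card_SGF, nsmul_eq_mul]

/-- Master inequality. -/
theorem master (hE : Dt.Le V E E') {X₁ X₂ : (W → ℤ) → ℝ} (h1 : ∀ a, 0 ≤ X₁ a)
    (h2 : ∀ a, 0 ≤ X₂ a)
    (hX : ∀ a, As R V E a → ∀ b, As R V E' b → X₁ a * X₂ b ≤ X₁ (a ⊓ b) * X₂ (a ⊔ b))
    {B : (W → ℤ) → ℝ} (hB0 : ∀ a, 0 ≤ B a) (hB : Monotone B)
    (hφ : ∀ i, ∀ x ∈ I, 0 ≤ φ i x) :
    (∑ h ∈ CF R V E, X₁ (ab h) * (B (ab h) * pl I φ h)) * (∑ h ∈ CF R V E', X₂ (ab h)) ≤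
      (∑ h ∈ CF R V E, X₁ (ab h)) *
        ∑ h ∈ CF R V E', X₂ (ab h) * (B (ab h) * pl I φ h) := by
  have r1 : ∀ (E : Dt W) (X : (W → ℤ) → ℝ), ∑ h ∈ CF R V E, X (ab h) * (B (ab h) * pl I φ h) =
      ∑ a ∈ AF R V E, ((nSG R V E.P a : ℝ) * X a) * (B a * Fk R V E.P I φ a) := by
    intro E X
    have h := sum_CF_pl (R := R) (V := V) (E := E) (I := I) (φ := φ) fun a => X a * B a
    have e : ∀ h : W → ℤ, X (ab h) * (B (ab h) * pl I φ h) = X (ab h) * B (ab h) * pl I φ h :=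
      fun h => by ring
    rw [Finset.sum_congr rfl fun h _ => e h, h]
    exact Finset.sum_congr rfl fun a _ => by ring
  rw [r1, r1, sum_CF_ab, sum_CF_ab]
  -- the functional of the larger data is used for both
  let w₁ : (W → ℤ) → ℝ := fun a => if As R V E a then (nSG R V E.P a : ℝ) * X₁ a else 0
  let w₂ : (W → ℤ) → ℝ := fun a => if As R V E' a then (nSG R V E'.P a : ℝ) * X₂ a else 0
  have hw₁ : ∀ a, 0 ≤ w₁ a := fun a => by
    dsimp only [w₁]
    split_ifs
    · exact mul_nonneg (Nat.cast_nonneg _) (h1 a)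
    · exact le_rfl
  have hw₂ : ∀ a, 0 ≤ w₂ a := fun a => by
    dsimp only [w₂]
    split_ifs
    · exact mul_nonneg (Nat.cast_nonneg _) (h2 a)
    · exact le_rfl
  have key := holley_weighted w₁ w₂ (fun a => B a * Fk R V E'.P I φ a) (AF R V E) (AF R V E')
    hw₁ hw₂ (fun a => mul_nonneg (hB0 a) (Fk_nonneg hφ _ a))
    (fun a a' h => mul_le_mul (hB h) (Fk_mono hφ (fun _ _ h => h) h) (Fk_nonneg hφ _ a) (hB0 a'))
    (fun a ha => if_neg fun h => ha (mem_AF.2 h)) (fun a ha => if_neg fun h => ha (mem_AF.2 h))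
    (by
      intro a a'
      by_cases ha : As R V E a
      · by_cases ha' : As R V E' a'
        · have hinf : As R V E (a ⊓ a') := by
            refine ⟨ha.ht.inf ha'.ht, fun x => le_inf (ha.one x) (ha'.one x), fun x hx => ?_,
              fun x hx => ?_⟩
            · exact le_inf (ha.lo x hx) ((hE.lo x hx).trans (ha'.lo x hx))
            · exact inf_le_left.trans (ha.hi x hx)
          have hsup : As R V E' (a ⊔ a') := by
            refine ⟨ha.ht.sup ha'.ht, fun x => le_sup_of_le_left (ha.one x), fun x hx => ?_,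
              fun x hx => ?_⟩
            · exact (ha'.lo x hx).trans le_sup_right
            · exact sup_le ((ha.hi x hx).trans (hE.hi x hx)) (ha'.hi x hx)
          dsimp only [w₁, w₂]
          rw [if_pos ha, if_pos ha', if_pos hinf, if_pos hsup]
          have e1 : (nSG R V E.P a : ℝ) * nSG R V E'.P a' ≤
              nSG R V E.P (a ⊓ a') * nSG R V E'.P (a ⊔ a') := by
            exact_mod_cast nSG_mul hE.P a a'
          have e2 := hX a ha a' ha'
          calc (nSG R V E.P a : ℝ) * X₁ a * (nSG R V E'.P a' * X₂ a')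
              = ((nSG R V E.P a : ℝ) * nSG R V E'.P a') * (X₁ a * X₂ a') := by ring
            _ ≤ ((nSG R V E.P (a ⊓ a') : ℝ) * nSG R V E'.P (a ⊔ a')) *
                (X₁ (a ⊓ a') * X₂ (a ⊔ a')) :=
                mul_le_mul e1 e2 (mul_nonneg (h1 _) (h2 _)) (by positivity)
            _ = _ := by ring
        · have : w₂ a' = 0 := if_neg ha'
          rw [this, mul_zero]
          exact mul_nonneg (hw₁ _) (hw₂ _)
      · have : w₁ a = 0 := if_neg ha
        rw [this, zero_mul]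
        exact mul_nonneg (hw₁ _) (hw₂ _))
  have e1 : ∑ a ∈ AF R V E, w₁ a * (B a * Fk R V E'.P I φ a) =
      ∑ a ∈ AF R V E, (nSG R V E.P a : ℝ) * X₁ a * (B a * Fk R V E'.P I φ a) :=
    Finset.sum_congr rfl fun a ha => by dsimp only [w₁]; rw [if_pos (mem_AF.1 ha)]
  have e2 : ∑ a ∈ AF R V E', w₂ a * (B a * Fk R V E'.P I φ a) =
      ∑ a ∈ AF R V E', (nSG R V E'.P a : ℝ) * X₂ a * (B a * Fk R V E'.P I φ a) :=
    Finset.sum_congr rfl fun a ha => by dsimp only [w₂]; rw [if_pos (mem_AF.1 ha)]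
  have e3 : ∑ a ∈ AF R V E, w₁ a = ∑ a ∈ AF R V E, (nSG R V E.P a : ℝ) * X₁ a :=
    Finset.sum_congr rfl fun a ha => by dsimp only [w₁]; rw [if_pos (mem_AF.1 ha)]
  have e4 : ∑ a ∈ AF R V E', w₂ a = ∑ a ∈ AF R V E', (nSG R V E'.P a : ℝ) * X₂ a :=
    Finset.sum_congr rfl fun a ha => by dsimp only [w₂]; rw [if_pos (mem_AF.1 ha)]
  rw [e1, e2, e3, e4] at key
  refine le_trans (mul_le_mul_of_nonneg_right ?_ ?_) key
  · refine Finset.sum_le_sum fun a ha => ?_
    refine mul_le_mul_of_nonneg_left ?_ (mul_nonneg (Nat.cast_nonneg _) (h1 a))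
    exact mul_le_mul_of_nonneg_left (Fk_mono hφ hE.P le_rfl) (hB0 a)
  · exact Finset.sum_nonneg fun a _ => mul_nonneg (Nat.cast_nonneg _) (h2 a)

end Vale.Agent.P153.R2.K
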