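import Vale.Agent.P153.R2.FKGK.Use

/-!
# P153, R2, block FKGK: interval data

Heights with `l x ≤ h x ≤ u x` on `V`. At a level `2 m` the data are one-sided if every site is
wired above the level (`1 ≤ l x - 2 m`) or symmetric about it; then `h - 2 m` is an ensemble `CF`.
-/

namespace Vale.Agent.P153.R2.K

open Finset Relation Vale.Agent.P153
open scoped Classical

variable {W : Type*} {R : W → W → Prop} {V : Finset W} {l u l' u' : W → ℤ}

/-- Heights with interval data. -/
structure Iv (R : W → W → Prop) (V : Finset W) (l u : W → ℤ) (h : W → ℤ) : Prop where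
  ht : Ht R V h
  lo : ∀ x ∈ V, l x ≤ h x
  hi : ∀ x ∈ V, h x ≤ u x

theorem finite_Iv (R : W → W → Prop) (V : Finset W) (l u : W → ℤ) : {h | Iv R V l u h}.Finite :=
  (finite_box V fun x => max |l x| |u x|).subset fun _ h => ⟨h.ht.off, fun x hx =>
    abs_le_max_abs_abs (h.lo x hx) (h.hi x hx)⟩

/-- The finite set of the heights with interval data. -/
noncomputable def IF (R : W → W → Prop) (V : Finset W) (l u : W → ℤ) : Finset (W → ℤ) :=
  (finite_Iv R V l u).toFinset

theorem mem_IF {h : W → ℤ} : h ∈ IF R V l u ↔ Iv R V l u h := by simp [IF]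

theorem Iv.inf {h h' : W → ℤ} (hl : ∀ x ∈ V, l x ≤ l' x) (hh : Iv R V l u h)
    (hh' : Iv R V l' u' h') : Iv R V l u (h ⊓ h') :=
  ⟨hh.ht.inf hh'.ht, fun x hx => le_inf (hh.lo x hx) ((hl x hx).trans (hh'.lo x hx)),
    fun x hx => inf_le_left.trans (hh.hi x hx)⟩

theorem Iv.sup {h h' : W → ℤ} (hu : ∀ x ∈ V, u x ≤ u' x) (hh : Iv R V l u h)
    (hh' : Iv R V l' u' h') : Iv R V l' u' (h ⊔ h') :=
  ⟨hh.ht.sup hh'.ht, fun x hx => (hh'.lo x hx).trans le_sup_right,
    fun x hx => sup_le ((hh.hi x hx).trans (hu x hx)) (hh'.hi x hx)⟩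

/-- Comparison for ordered interval data. -/
theorem IF_ev_le (hl : ∀ x ∈ V, l x ≤ l' x) (hu : ∀ x ∈ V, u x ≤ u' x)
    (hn : (IF R V l u).Nonempty) (hn' : (IF R V l' u').Nonempty) {F : (W → ℤ) → ℝ}
    (hF : Monotone F) : ev (IF R V l u) F ≤ ev (IF R V l' u') F := by
  refine ev_le_ev _ _ hn hn' (fun a ha b hb => ?_) (fun a ha b hb => ?_) F hF
  · exact mem_IF.2 ((mem_IF.1 ha).inf hl (mem_IF.1 hb))
  · exact mem_IF.2 ((mem_IF.1 ha).sup hu (mem_IF.1 hb))

/-- Positive association of the heights. -/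
theorem IF_ev_mul (hn : (IF R V l u).Nonempty) {F G : (W → ℤ) → ℝ} (hF : Monotone F)
    (hG : Monotone G) : ev (IF R V l u) F * ev (IF R V l u) G ≤
      ev (IF R V l u) (fun h => F h * G h) := by
  refine ev_mul_ge _ hn (fun a ha b hb => ?_) (fun a ha b hb => ?_) F G hF hG
  · exact mem_IF.2 ((mem_IF.1 ha).inf (fun _ _ => le_rfl) (mem_IF.1 hb))
  · exact mem_IF.2 ((mem_IF.1 ha).sup (fun _ _ => le_rfl) (mem_IF.1 hb))

/-! ### Shift and reflection -/

/-- Subtract `2 m` on `V`. -/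
noncomputable def sh (V : Finset W) (m : ℤ) (h : W → ℤ) : W → ℤ :=
  fun x => if x ∈ V then h x - 2 * m else 1

/-- Change the sign on `V`. -/
noncomputable def rf (V : Finset W) (h : W → ℤ) : W → ℤ := fun x => if x ∈ V then - h x else 1

theorem sh_in {m : ℤ} {h : W → ℤ} {x : W} (hx : x ∈ V) : sh V m h x = h x - 2 * m := if_pos hx

theorem sh_out {m : ℤ} {h : W → ℤ} {x : W} (hx : x ∉ V) : sh V m h x = 1 := if_neg hx

theorem rf_in {h : W → ℤ} {x : W} (hx : x ∈ V) : rf V h x = - h x := if_pos hx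

theorem rf_out {h : W → ℤ} {x : W} (hx : x ∉ V) : rf V h x = 1 := if_neg hx

theorem Ht.sh {h : W → ℤ} (hh : Ht R V h) (m : ℤ) : Ht R V (sh V m h) := by
  refine ⟨fun x hx => sh_out hx, fun x => ?_, fun x hx y hy hxy => ?_⟩
  · by_cases hx : x ∈ V
    · rw [sh_in hx]
      obtain ⟨n, hn⟩ := hh.odd x
      exact ⟨n - m, by rw [hn]; ring⟩
    · rw [sh_out hx]; exact odd_one
  · rw [sh_in hx, sh_in hy, sub_sub_sub_cancel_right]
    exact hh.lip x hx y hy hxy

theorem Ht.rf {h : W → ℤ} (hh : Ht R V h) : Ht R V (rf V h) := by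
  refine ⟨fun x hx => rf_out hx, fun x => ?_, fun x hx y hy hxy => ?_⟩
  · by_cases hx : x ∈ V
    · rw [rf_in hx]
      exact (hh.odd x).neg
    · rw [rf_out hx]; exact odd_one
  · rw [rf_in hx, rf_in hy, show - h x - - h y = - (h x - h y) by ring, abs_neg]
    exact hh.lip x hx y hy hxy

theorem sh_sh {h : W → ℤ} (hh : ∀ x, x ∉ V → h x = 1) (m : ℤ) : sh V (-m) (sh V m h) = h := by
  funext x
  by_cases hx : x ∈ V
  · rw [sh_in hx, sh_in hx]; ring
  · rw [sh_out hx, hh x hx]

theorem rf_rf {h : W → ℤ} (hh : ∀ x, x ∉ V → h x = 1) : rf V (rf V h) = h := by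
  funext x
  by_cases hx : x ∈ V
  · rw [rf_in hx, rf_in hx]; ring
  · rw [rf_out hx, hh x hx]

/-- Reflection. -/
theorem sum_rf (F : (W → ℤ) → ℝ) :
    ∑ h ∈ IF R V l u, F (rf V h) = ∑ h ∈ IF R V (fun x => - u x) (fun x => - l x), F h := by
  refine Finset.sum_nbij' (rf V) (rf V) ?_ ?_ ?_ ?_ ?_
  · intro h hh
    rw [mem_IF] at *
    exact ⟨hh.ht.rf, fun x hx => by rw [rf_in hx]; have := hh.hi x hx; omega,
      fun x hx => by rw [rf_in hx]; have := hh.lo x hx; omega⟩
  · intro h hh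
    rw [mem_IF] at *
    exact ⟨hh.ht.rf, fun x hx => by rw [rf_in hx]; have := hh.hi x hx; omega,
      fun x hx => by rw [rf_in hx]; have := hh.lo x hx; omega⟩
  · intro h hh
    exact rf_rf (mem_IF.1 hh).ht.off
  · intro h hh
    exact rf_rf (mem_IF.1 hh).ht.off
  · intro h _; rfl

/-- Shift. -/
theorem sum_sh (m : ℤ) (F : (W → ℤ) → ℝ) :
    ∑ h ∈ IF R V l u, F (sh V m h) =
      ∑ h ∈ IF R V (fun x => l x - 2 * m) (fun x => u x - 2 * m), F h := by
  refine Finset.sum_nbij' (sh V m) (sh V (-m)) ?_ ?_ ?_ ?_ ?_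
  · intro h hh
    rw [mem_IF] at *
    exact ⟨hh.ht.sh m, fun x hx => by rw [sh_in hx]; have := hh.lo x hx; omega,
      fun x hx => by rw [sh_in hx]; have := hh.hi x hx; omega⟩
  · intro h hh
    rw [mem_IF] at *
    exact ⟨hh.ht.sh (-m), fun x hx => by rw [sh_in hx]; have := hh.lo x hx; omega,
      fun x hx => by rw [sh_in hx]; have := hh.hi x hx; omega⟩
  · intro h hh
    exact sh_sh (mem_IF.1 hh).ht.off m
  · intro h hh
    have := sh_sh (mem_IF.1 hh).ht.off (-m)
    rwa [neg_neg] at this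
  · intro h _; rfl

theorem card_sh (m : ℤ) :
    #(IF R V l u) = #(IF R V (fun x => l x - 2 * m) (fun x => u x - 2 * m)) := by
  have h := sum_sh (R := R) (V := V) (l := l) (u := u) m fun _ => 1
  simp only [Finset.sum_const, nsmul_eq_mul, mul_one] at h
  exact_mod_cast h

theorem card_rf : #(IF R V l u) = #(IF R V (fun x => - u x) (fun x => - l x)) := by
  have h := sum_rf (R := R) (V := V) (l := l) (u := u) fun _ => 1
  simp only [Finset.sum_const, nsmul_eq_mul, mul_one] at h
  exact_mod_cast h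

theorem ev_rf (F : (W → ℤ) → ℝ) :
    ev (IF R V l u) (fun h => F (rf V h)) = ev (IF R V (fun x => - u x) (fun x => - l x)) F := by
  unfold ev
  rw [sum_rf, card_rf]

theorem ev_sh (m : ℤ) (F : (W → ℤ) → ℝ) :
    ev (IF R V l u) (fun h => F (sh V m h)) =
      ev (IF R V (fun x => l x - 2 * m) (fun x => u x - 2 * m)) F := by
  unfold ev
  rw [sum_sh, card_sh]

/-! ### One-sided data -/

/-- Every site is wired above `0` or symmetric about `0`. -/
def One (V : Finset W) (l u : W → ℤ) : Prop := ∀ x ∈ V, 1 ≤ l x ∨ l x = - u x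

/-- The data of the modulus. -/
def dt (l u : W → ℤ) : Dt W where
  lo := fun x => if 1 ≤ l x then l x else 1
  hi := u
  P := {x | 1 ≤ l x}

/-- One-sided interval data as an ensemble `CF`. -/
theorem IF_eq_CF (h1 : One V l u) : IF R V l u = CF R V (dt l u) := by
  ext h
  rw [mem_IF, mem_CF]
  constructor
  · intro hh
    refine ⟨hh.ht, fun x hx => ?_, fun x hx => ?_, fun x hx hp => ?_⟩
    · show (if 1 ≤ l x then l x else 1) ≤ |h x|
      split_ifs with hl
      · exact (hh.lo x hx).trans (le_abs_self _)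
      · exact one_le_abs (hh.ht.odd x)
    · show |h x| ≤ u x
      have i1 := hh.lo x hx
      have i2 := hh.hi x hx
      rw [abs_le]
      rcases h1 x hx with h3 | h3 <;> constructor <;> omega
    · have i1 := hh.lo x hx
      have i2 : 1 ≤ l x := hp
      omega
  · intro hh
    refine ⟨hh.ht, fun x hx => ?_, fun x hx => ?_⟩
    · have i1 := hh.lo x hx
      have i2 := hh.hi x hx
      change (if 1 ≤ l x then l x else 1) ≤ |h x| at i1
      change |h x| ≤ u x at i2
      rcases h1 x hx with h3 | h3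
      · rw [if_pos h3] at i1
        have i4 := hh.P x hx h3
        rw [abs_of_pos i4] at i1
        exact i1
      · rw [h3]
        exact (abs_le.1 i2).1
    · exact (le_abs_self _).trans (hh.hi x hx)

/-- Ordered one-sided data. -/
theorem dt_le (hl : ∀ x ∈ V, 1 ≤ l x → l x ≤ l' x) (hu : ∀ x ∈ V, u x ≤ u' x) :
    Dt.Le V (dt l u) (dt l' u') := by
  refine ⟨fun x hx => ?_, hu, fun x hx hp => ?_⟩
  · show (if 1 ≤ l x then l x else 1) ≤ if 1 ≤ l' x then l' x else 1
    by_cases h1 : 1 ≤ l x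
    · have := hl x hx h1
      rw [if_pos h1, if_pos (h1.trans this)]
      exact this
    · rw [if_neg h1]
      split_ifs with h2
      · exact h2
      · exact le_rfl
  · exact le_trans (show 1 ≤ l x from hp) (hl x hx hp)

end Vale.Agent.P153.R2.K
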