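import Vale.Agent.P153.R2.FKGK.Rep

/-!
# P153-R2, block FKGK: positivity of the products, changing the data away from the domain

* `md_pm_nonneg`: products of nonnegative linear functionals of `σ (h - m)` have nonnegative mean
  under every conditioning on the modulus.
* `Ex_off`: the average of a function of the heights on `nb V` does not depend on the data off `nb V`.
* `Ex_cut`: freezing `|h - m| = 1` on `N` is the same as removing `N` from the domain.
-/

namespace Vale.Agent.P153.R2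

open Set Relation
open Vale.Agent.P153
open Vale.Agent.P153.Topo (Conn)
open scoped Classical

variable {V : Set Pt} {I J : Pt → Set ℤ} {m σ : ℤ}

/-- Products have nonnegative mean under every conditioning on the modulus. -/
theorem md_pm_nonneg (h : Lv V I m σ) (A : Set Hg) {B : Hg → ℝ} (hB0 : ∀ a, 0 ≤ B a) {k : ℕ}
    {Z : Finset Pt} (hZ : ∀ x ∈ Z, x ∈ nb V) {φ : Fin k → Pt → ℝ} (hφ : ∀ i, ∀ x ∈ Z, 0 ≤ φ i x) :
    0 ≤ Ex (Cfg V I ∩ {g | md m g ∈ A}) (fun g => B (md m g) * pm m σ Z φ g) := by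
  obtain ⟨W, c, N, hZW, -, ok, -⟩ := h.cmp.exists_ok Z hZ
  have fI := Cfg_finite h.dI
  rw [Ex_inter_eq fI]
  refine div_nonneg ?_ (Finset.sum_nonneg fun g _ => by unfold ind; split_ifs <;> norm_num)
  have iD : ∀ g, ind {g | md m g ∈ A} g = ind A (md m g) := fun g => rfl
  simp only [iD]
  rw [Tr.sum_md ok fI (ind A) B hZW φ]
  have key := K.sum_CF_pl (R := Tr.Rel V) (V := W) (E := Tr.E m σ N I) (I := Z) (φ := φ)
    (fun a => (if Tr.Al W m I a then 1 else 0) * ind A (Tr.ex W m c a) * B (Tr.ex W m c a))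
  have e : ∀ k' : Hg, ((if Tr.Al W m I (K.ab k') then (1 : ℝ) else 0) *
      ind A (Tr.ex W m c (K.ab k'))) * (B (Tr.ex W m c (K.ab k')) * K.pl Z φ k') =
      (if Tr.Al W m I (K.ab k') then (1 : ℝ) else 0) * ind A (Tr.ex W m c (K.ab k')) *
        B (Tr.ex W m c (K.ab k')) * K.pl Z φ k' := fun k' => by ring
  rw [Finset.sum_congr rfl fun k' _ => e k', key]
  refine Finset.sum_nonneg fun a _ => mul_nonneg (mul_nonneg (Nat.cast_nonneg _)
    (mul_nonneg (mul_nonneg ?_ ?_) (hB0 _))) (K.Fk_nonneg hφ _ a)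
  · split_ifs <;> norm_num
  · unfold ind; split_ifs <;> norm_num

/-! ### Data off `nb V` -/

/-- Averages over two finite sets which are matched by a bijection between products. -/
theorem Ex_prod_eq {α β : Type*} {S : Set α} {T : Set β}
    (hS : S.Finite) (hT : T.Finite) (f : α → β → α) (g : α → β → β)
    (hf : ∀ a ∈ S, ∀ b ∈ T, f a b ∈ S ∧ g a b ∈ T) 
    (hinv : ∀ a ∈ S, ∀ b ∈ T, f (f a b) (g a b) = a ∧ g (f a b) (g a b) = b)
    (hn : S.Nonempty) (hn' : T.Nonempty) (F : α → ℝ) (G : β → ℝ)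
    (hFG : ∀ a ∈ S, ∀ b ∈ T, G (g a b) = F a) : Ex S F = Ex T G := by
  have h1 : ∑ q ∈ hS.toFinset ×ˢ hT.toFinset, F q.1 = ∑ q ∈ hS.toFinset ×ˢ hT.toFinset, G q.2 := by
    refine Finset.sum_nbij' (fun q => (f q.1 q.2, g q.1 q.2)) (fun q => (f q.1 q.2, g q.1 q.2))
      ?_ ?_ ?_ ?_ ?_
    · rintro ⟨a, b⟩ hq
      simp only [Finset.mem_product, Set.Finite.mem_toFinset] at hq ⊢
      exact hf a hq.1 b hq.2
    · rintro ⟨a, b⟩ hq
      simp only [Finset.mem_product, Set.Finite.mem_toFinset] at hq ⊢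
      exact hf a hq.1 b hq.2
    · rintro ⟨a, b⟩ hq
      simp only [Finset.mem_product, Set.Finite.mem_toFinset] at hq
      exact Prod.ext (hinv a hq.1 b hq.2).1 (hinv a hq.1 b hq.2).2
    · rintro ⟨a, b⟩ hq
      simp only [Finset.mem_product, Set.Finite.mem_toFinset] at hq
      exact Prod.ext (hinv a hq.1 b hq.2).1 (hinv a hq.1 b hq.2).2
    · rintro ⟨a, b⟩ hq
      simp only [Finset.mem_product, Set.Finite.mem_toFinset] at hq
      exact (hFG a hq.1 b hq.2).symm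
  rw [Finset.sum_product, Finset.sum_product_right] at h1
  simp only [Finset.sum_const, nsmul_eq_mul] at h1
  rw [Ex_eq_ev hS, Ex_eq_ev hT]
  unfold ev
  have c1 : (0 : ℝ) < (Finset.card hS.toFinset : ℕ) := by
    exact_mod_cast Finset.card_pos.2 ((Set.Finite.toFinset_nonempty hS).2 hn)
  have c2 : (0 : ℝ) < (Finset.card hT.toFinset : ℕ) := by
    exact_mod_cast Finset.card_pos.2 ((Set.Finite.toFinset_nonempty hT).2 hn')
  rw [← Finset.mul_sum, ← Finset.mul_sum] at h1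
  rw [div_eq_div_iff c1.ne' c2.ne']
  linarith

/-- The heights of `b` on `K` and of `a` off `K`. -/
noncomputable def glu (K : Set Pt) (b a : Hg) : Hg := fun x => if x ∈ K then b x else a x

theorem glu_in {K : Set Pt} {b a : Hg} {x : Pt} (hx : x ∈ K) : glu K b a x = b x := if_pos hx
theorem glu_out {K : Set Pt} {b a : Hg} {x : Pt} (hx : x ∉ K) : glu K b a x = a x := if_neg hx

/-- The events determined by the heights off `K`. -/
def OffDet (K : Set Pt) (A : Set Hg) : Prop := ∀ a ∈ A, ∀ b : Hg, (∀ x, x ∉ K → b x = a x) → b ∈ A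

variable {V' K : Set Pt}

theorem glu_mem (hIJ : ∀ x ∈ K, I x = J x)
    (hE : ∀ x ∈ K, ∀ y ∈ K, Adj x y → x ∈ V → x ∈ V' ∨ y ∈ V')
    (hX : ∀ x ∈ K, ∀ y, y ∉ K → Adj x y → x ∈ V ∨ y ∈ V → (I x).Subsingleton) {a b : Hg}
    (ha : a ∈ Cfg V I) (hb : b ∈ Cfg V' J) : glu K b a ∈ Cfg V I := by
  have hsame : ∀ x ∈ K, (I x).Subsingleton → b x = a x := fun x hx hs =>
    hs (by rw [hIJ x hx]; exact hb.2.1 x) (ha.2.1 x)
  refine ⟨fun x => ?_, fun x => ?_, fun x hx y hxy => ?_⟩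
  · by_cases h1 : x ∈ K
    · rw [glu_in h1]; exact hb.1 x
    · rw [glu_out h1]; exact ha.1 x
  · by_cases h1 : x ∈ K
    · rw [glu_in h1, hIJ x h1]; exact hb.2.1 x
    · rw [glu_out h1]; exact ha.2.1 x
  · by_cases h1 : x ∈ K
    · by_cases h2 : y ∈ K
      · rw [glu_in h1, glu_in h2]
        rcases hE x h1 y h2 hxy hx with h3 | h3
        · exact hb.2.2 x h3 y hxy
        · rw [abs_sub_comm]
          exact hb.2.2 y h3 x (Topo.adj_symm hxy)
      · rw [glu_in h1, glu_out h2, hsame x h1 (hX x h1 y h2 hxy (Or.inl hx))]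
        exact ha.2.2 x hx y hxy
    · by_cases h2 : y ∈ K
      · rw [glu_out h1, glu_in h2, hsame y h2 (hX y h2 x h1 (Topo.adj_symm hxy) (Or.inr hx))]
        exact ha.2.2 x hx y hxy
      · rw [glu_out h1, glu_out h2]
        exact ha.2.2 x hx y hxy

/-- Averages of functions of the heights on `K` agree if the data and the domains agree on `K` and
the sites of `K` with neighbours off `K` have fixed heights (for the edges which carry a
condition); events determined off `K` play no role. -/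
theorem Ex_swap (dI : Dat V I) (dJ : Dat V' J) (hIJ : ∀ x ∈ K, I x = J x)
    (hE : ∀ x ∈ K, ∀ y ∈ K, Adj x y → x ∈ V → x ∈ V' ∨ y ∈ V')
    (hE' : ∀ x ∈ K, ∀ y ∈ K, Adj x y → x ∈ V' → x ∈ V ∨ y ∈ V)
    (hX : ∀ x ∈ K, ∀ y, y ∉ K → Adj x y → x ∈ V ∨ y ∈ V → (I x).Subsingleton)
    (hX' : ∀ x ∈ K, ∀ y, y ∉ K → Adj x y → x ∈ V' ∨ y ∈ V' → (J x).Subsingleton)
    {A A' : Set Hg} (hA : OffDet K A) (hA' : OffDet K A') (hn : (Cfg V I ∩ A).Nonempty)
    (hn' : (Cfg V' J ∩ A').Nonempty) {F : Hg → ℝ}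
    (hF : ∀ a b : Hg, (∀ x ∈ K, a x = b x) → F a = F b) :
    Ex (Cfg V I ∩ A) F = Ex (Cfg V' J ∩ A') F := by
  refine Ex_prod_eq ((Cfg_finite dI).inter_of_left _) ((Cfg_finite dJ).inter_of_left _)
    (fun a b => glu K b a) (fun a b => glu K a b) (fun a ha b hb => ⟨⟨?_, ?_⟩, ⟨?_, ?_⟩⟩)
    (fun a _ b _ => ⟨?_, ?_⟩) hn hn' F F (fun a _ b _ => ?_)
  · exact glu_mem hIJ hE hX ha.1 hb.1
  · exact hA a ha.2 _ fun x hx => glu_out hx
  · exact glu_mem (fun x hx => (hIJ x hx).symm) hE' hX' hb.1 ha.1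
  · exact hA' b hb.2 _ fun x hx => glu_out hx
  · funext x
    by_cases hx : x ∈ K
    · rw [glu_in hx, glu_in hx]
    · rw [glu_out hx, glu_out hx]
  · funext x
    by_cases hx : x ∈ K
    · rw [glu_in hx, glu_in hx]
    · rw [glu_out hx, glu_out hx]
  · exact hF _ _ fun x hx => glu_in hx

theorem OffDet_univ (K : Set Pt) : OffDet K univ := fun _ _ _ _ => Set.mem_univ _

/-- The data off `nb V` are irrelevant for functions of the heights on `nb V`. -/
theorem Ex_off (dI : Dat V I) (dJ : Dat V J) (hIJ : ∀ x ∈ nb V, I x = J x)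
    (hn : (Cfg V I).Nonempty) (hn' : (Cfg V J).Nonempty) {F : Hg → ℝ}
    (hF : ∀ a b : Hg, (∀ x ∈ nb V, a x = b x) → F a = F b) : Ex (Cfg V I) F = Ex (Cfg V J) F := by
  have hX : ∀ (I : Pt → Set ℤ), ∀ x ∈ nb V, ∀ y, y ∉ nb V → Adj x y → x ∈ V ∨ y ∈ V →
      (I x).Subsingleton := by
    intro I x hx y hy hxy hV
    exfalso
    rcases hV with h1 | h1
    · exact hy (Tr.mem_nb_of_left h1 hxy).2
    · exact hy (Or.inl h1)
  have key := Ex_swap (K := nb V) dI dJ hIJ (fun x _ y _ _ hx => Or.inl hx)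
    (fun x _ y _ _ hx => Or.inl hx) (hX I) (hX J) (OffDet_univ _) (OffDet_univ _)
    (by rwa [inter_univ]) (by rwa [inter_univ]) hF
  simpa only [inter_univ] using key

/-- Removing the frozen set `N` (where `|h - m| = 1`, as on its neighbours off `V \ N`). -/
theorem Cfg_cut {N : Set Pt} (hN : ∀ x ∈ N, I x ⊆ {m - 1, m + 1})
    (hV : ∀ x ∈ N, ∀ y, y ∉ V → y ∉ N → Adj x y → I y ⊆ {m - 1, m + 1}) :
    Cfg V I = Cfg (V \ N) I := by
  refine Cfg_sdiff fun x hx y hy hxy a ha b hb => ?_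
  have h1 := hN x hx ha
  have h2 : b = m - 1 ∨ b = m + 1 := by
    by_cases hyN : y ∈ N
    · exact hN y hyN hb
    · exact hV x hx y (fun h => hy ⟨h, hyN⟩) hyN hxy hb
  rcases h1 with h1 | h1 <;> rcases h2 with h2 | h2 <;> rw [h1, h2, abs_le] <;> omega

theorem rpl_in {A : Set Pt} {x : Pt} (hx : x ∈ A) : rpl I A J x = J x := if_pos hx
theorem rpl_out {A : Set Pt} {x : Pt} (hx : x ∉ A) : rpl I A J x = I x := if_neg hx

/-- Replacing data on finitely many sites of `nb V` by smaller data. -/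
theorem Cmp_rpl_le (h : Lv V I m σ) {A : Set Pt} (hAf : A.Finite)
    (hJ : ∀ x ∈ A, SdLe m σ (J x) (I x)) (hfin : ∀ x ∈ A, (J x).Finite)
    (hne : (Cfg V (rpl I A J)).Nonempty) : Cmp V (rpl I A J) I m σ where
  even := h.even
  sg := h.sg
  dI := by
    refine ⟨h.dI.fin, fun x hx => ?_, ?_⟩
    · by_cases hxA : x ∈ A
      · rw [rpl_in hxA]; exact hfin x hxA
      · rw [rpl_out hxA]; exact h.dI.bdd x hx
    · refine (h.dI.cof.union hAf).subset fun x hx => ?_
      by_cases hxA : x ∈ A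
      · exact Or.inr hxA
      · left
        have : ¬ (rpl I A J x).Subsingleton := hx
        rwa [rpl_out hxA] at this
  dJ := h.dI
  fin := by
    refine hAf.subset fun x hx => ?_
    by_contra hxA
    exact hx (rpl_out hxA)
  ne := hne
  ne' := h.ne
  le := fun x => by
    by_cases hxA : x ∈ A
    · rw [rpl_in hxA]; exact Or.inl (hJ x hxA)
    · rw [rpl_out hxA]
      rcases h.sd x with h1 | h1
      · exact Or.inl (SdLe.refl h1)
      · exact Or.inr ⟨h1.1, rfl, h1.2⟩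

/-- Cutting: the law on `V \ N` with free data on `N` is below the law on `V`. -/
theorem Cmp_cut (h : Lv V I m σ) {N : Set Pt} (hNV : N ⊆ V)
    (hV : ∀ x ∈ N, ∀ y, y ∉ V → Adj x y → I y ⊆ {m - 1, m + 1})
    (hne : (Cfg (V \ N) (rpl I N fun _ => {m - 1, m + 1})).Nonempty)
    (hsd : ∀ x ∈ N, Sd m σ (I x)) :
    Cfg V (rpl I N fun _ => {m - 1, m + 1}) = Cfg (V \ N) (rpl I N fun _ => {m - 1, m + 1}) ∧
      Cmp V (rpl I N fun _ => {m - 1, m + 1}) I m σ := by
  have e : Cfg V (rpl I N fun _ => {m - 1, m + 1}) =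
      Cfg (V \ N) (rpl I N fun _ => {m - 1, m + 1}) := by
    refine Cfg_cut (m := m) (fun x hx => ?_) (fun x hx y hy hyN hxy => ?_)
    · rw [rpl_in hx]
    · rw [rpl_out hyN]; exact hV x hx y hy hxy
  refine ⟨e, Cmp_rpl_le h (h.dI.fin.subset hNV) (fun x hx => SdLe_free h.even h.sg (hsd x hx))
    (fun x _ => Set.toFinite _) (by rw [e]; exact hne)⟩

/-- Mean `m` if no site is wired. -/
theorem md_zero (h : Lv V I m σ) (hw : ∀ p ∈ nb V, ¬ Wr m σ (I p)) {z : Pt} (hz : z ∈ nb V) :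
    Ex (Cfg V I) (fun g => (g z : ℝ)) = m := by
  have h1 := md_zero_on h hz univ (fun g _ _ hc => by
    obtain ⟨p, hp, hzp⟩ := hc
    exact hw p (Tr.nb_of_path hz hzp) hp)
  rw [inter_univ_md] at h1
  have h2 : Ex (Cfg V I) (fun g => ((σ * (g z - m) : ℤ) : ℝ)) =
      σ * (Ex (Cfg V I) (fun g => (g z : ℝ)) - m) := by
    rw [← Ex_const (Cfg_finite h.dI) h.ne (m : ℝ), ← Ex_sub, ← Ex_const_mul]
    exact Ex_congr fun g _ => by push_cast; ring
  rw [h2] at h1
  have h3 : (σ : ℝ) ≠ 0 := by exact_mod_cast sg_ne_neg h.sg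
  have h4 := (mul_eq_zero.1 h1).resolve_left h3
  linarith

/-- The mean as `m` plus a nonnegative multiple of the sign. -/
theorem md_mean_eq (h : Lv V I m σ) (A : Set Hg) (hn : (Cfg V I ∩ {g | md m g ∈ A}).Nonempty)
    (z : Pt) : Ex (Cfg V I ∩ {g | md m g ∈ A}) (fun g => ((σ * (g z - m) : ℤ) : ℝ)) =
      σ * (Ex (Cfg V I ∩ {g | md m g ∈ A}) (fun g => (g z : ℝ)) - m) := by
  rw [← Ex_const ((Cfg_finite h.dI).inter_of_left _) hn (m : ℝ), ← Ex_sub, ← Ex_const_mul]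
  exact Ex_congr fun g _ => by push_cast; ring

end Vale.Agent.P153.R2
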