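import Vale.Agent.P153.R2.FKGK.Lev

/-!
# P153-R2, block FKGK: representation by signs, association with products, for `Cfg V I`

* `md_master`: the product form of the comparison with arbitrary monotone weights.
* `md_cov`, `md_cov_anti`: association of products of linear functionals with functions of the modulus.
* `md_nonneg`: the products have nonnegative mean under every conditioning on the modulus.
* `md_rep`: `E[Y(k) σ (h z - m)] = E[Y(k) |h z - m|; z ↔ wired sites]`, `md_fib`: given the modulus.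
* `md_zero`: zero mean if no site is wired.
-/

namespace Vale.Agent.P153.R2

open Set Relation
open Vale.Agent.P153
open Vale.Agent.P153.Topo (Conn)
open scoped Classical

variable {V : Set Pt} {I J : Pt → Set ℤ} {m σ : ℤ}

/-- Product form of the comparison. -/
theorem md_master (h : Cmp V I J m σ) {X Y : Hg → ℝ} (hX0 : ∀ a, 0 ≤ X a) (hY0 : ∀ a, 0 ≤ Y a)
    (hX : Antitone X) (hY : Monotone Y) {B : Hg → ℝ} (hB0 : ∀ a, 0 ≤ B a) (hB : Monotone B)
    {k : ℕ} {Z : Finset Pt} (hZ : ∀ x ∈ Z, x ∈ nb V) {φ : Fin k → Pt → ℝ}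
    (hφ : ∀ i, ∀ x ∈ Z, 0 ≤ φ i x) :
    Ex (Cfg V I) (fun g => X (md m g) * (B (md m g) * pm m σ Z φ g)) *
        Ex (Cfg V J) (fun g => Y (md m g)) ≤
      Ex (Cfg V I) (fun g => X (md m g)) *
        Ex (Cfg V J) (fun g => Y (md m g) * (B (md m g) * pm m σ Z φ g)) := by
  obtain ⟨W, c, N, hZW, hle, ok, ok'⟩ := h.exists_ok Z hZ
  have fI := Cfg_finite h.dI
  have fJ := Cfg_finite h.dJ
  have key := K.master (R := Tr.Rel V) (V := W) (E := Tr.E m σ N I) (E' := Tr.E m σ N J)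
    (Tr.E_le fun x hx => (hle x hx).wr)
    (X₁ := fun a => (if Tr.Al W m I a then 1 else 0) * X (Tr.ex W m c a))
    (X₂ := fun a => (if Tr.Al W m J a then 1 else 0) * Y (Tr.ex W m c a))
    (fun a => mul_nonneg (by split_ifs <;> norm_num) (hX0 _))
    (fun a => mul_nonneg (by split_ifs <;> norm_num) (hY0 _))
    (fun a _ b _ => by
      by_cases h1 : Tr.Al W m I a
      · by_cases h2 : Tr.Al W m J b
        · have h5 := Tr.Al_inf_sup hle h1 h2
          simp only [h5.1, h5.2, h1, h2, if_true, one_mul]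
          exact mul_le_mul (hX (Tr.ex_mono inf_le_left)) (hY (Tr.ex_mono le_sup_right)) (hY0 _)
            (hX0 _)
        · rw [if_neg h2, zero_mul, mul_zero]
          exact mul_nonneg (mul_nonneg (by split_ifs <;> norm_num) (hX0 _))
            (mul_nonneg (by split_ifs <;> norm_num) (hY0 _))
      · rw [if_neg h1, zero_mul, zero_mul]
        exact mul_nonneg (mul_nonneg (by split_ifs <;> norm_num) (hX0 _))
          (mul_nonneg (by split_ifs <;> norm_num) (hY0 _)))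
    (B := fun a => B (Tr.ex W m c a)) (fun a => hB0 _) (fun a b hab => hB (Tr.ex_mono hab))
    (I := Z) (φ := φ) hφ
  rw [← Tr.sum_md ok fI X B hZW φ, ← Tr.sum_md ok' fJ Y B hZW φ,
    ← Tr.sum_md' ok fI X, ← Tr.sum_md' ok' fJ Y] at key
  rw [Ex_eq_ev fI, Ex_eq_ev fI, Ex_eq_ev fJ, Ex_eq_ev fJ]
  unfold ev
  rw [div_mul_div_comm, div_mul_div_comm]
  exact div_le_div_of_nonneg_right key (by positivity)

/-- Positive correlation of products with increasing functions of the modulus. -/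
theorem md_cov (h : Lv V I m σ) {Y : Hg → ℝ} (hY0 : ∀ a, 0 ≤ Y a) (hY : Monotone Y) {B : Hg → ℝ}
    (hB0 : ∀ a, 0 ≤ B a) (hB : Monotone B) {k : ℕ} {Z : Finset Pt} (hZ : ∀ x ∈ Z, x ∈ nb V)
    {φ : Fin k → Pt → ℝ} (hφ : ∀ i, ∀ x ∈ Z, 0 ≤ φ i x) :
    Ex (Cfg V I) (fun g => B (md m g) * pm m σ Z φ g) * Ex (Cfg V I) (fun g => Y (md m g)) ≤
      Ex (Cfg V I) (fun g => Y (md m g) * (B (md m g) * pm m σ Z φ g)) := by
  have key := md_master h.cmp (X := fun _ => 1) (Y := Y) (fun _ => zero_le_one) hY0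
    (fun _ _ _ => le_rfl) hY hB0 hB hZ hφ
  rw [Ex_const (Cfg_finite h.dI) h.ne] at key
  simpa only [one_mul] using key

/-- Negative correlation of products with decreasing functions of the modulus. -/
theorem md_cov_anti (h : Lv V I m σ) {X : Hg → ℝ} (hX0 : ∀ a, 0 ≤ X a) (hX : Antitone X)
    {B : Hg → ℝ} (hB0 : ∀ a, 0 ≤ B a) (hB : Monotone B) {k : ℕ} {Z : Finset Pt}
    (hZ : ∀ x ∈ Z, x ∈ nb V) {φ : Fin k → Pt → ℝ} (hφ : ∀ i, ∀ x ∈ Z, 0 ≤ φ i x) :
    Ex (Cfg V I) (fun g => X (md m g) * (B (md m g) * pm m σ Z φ g)) ≤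
      Ex (Cfg V I) (fun g => X (md m g)) * Ex (Cfg V I) (fun g => B (md m g) * pm m σ Z φ g) := by
  have key := md_master h.cmp (X := X) (Y := fun _ => 1) hX0 (fun _ => zero_le_one) hX
    (fun _ _ _ => le_rfl) hB0 hB hZ hφ
  rw [Ex_const (Cfg_finite h.dI) h.ne] at key
  simpa only [one_mul, mul_one] using key

/-! ### Representation -/

/-- Open step (level `m`) along an edge which touches `V`. -/
def OpV (V : Set Pt) (m : ℤ) (h : Hg) (x y : Pt) : Prop := OpL m h x y ∧ (x ∈ V ∨ y ∈ V)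

/-- Joined to a wired site by open edges which touch `V`. -/
def CnW (V : Set Pt) (I : Pt → Set ℤ) (m σ : ℤ) (h : Hg) (x : Pt) : Prop :=
  ∃ p, Wr m σ (I p) ∧ ReflTransGen (OpV V m h) x p

theorem OpV.nb {h : Hg} {x y : Pt} (hxy : OpV V m h x y) : x ∈ nb V ∧ y ∈ nb V := by
  rcases hxy.2 with h1 | h1
  · exact Tr.mem_nb_of_left h1 hxy.1.1
  · exact (Tr.mem_nb_of_left h1 (Topo.adj_symm hxy.1.1)).symm

theorem OpV.symm {h : Hg} {x y : Pt} (hxy : OpV V m h x y) : OpV V m h y x :=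
  ⟨⟨Topo.adj_symm hxy.1.1, fun hc => hxy.1.2 ⟨hc.2, hc.1⟩⟩, hxy.2.symm⟩

theorem OpV.mono {h h' : Hg} (hh : ∀ x, |h x - m| = 1 ∨ 3 ≤ |h' x - m|)
    {x y : Pt} (hxy : OpV V m h x y) : OpV V m h' x y := by
  refine ⟨⟨hxy.1.1, fun hc => hxy.1.2 ⟨?_, ?_⟩⟩, hxy.2⟩
  · rcases hh x with h1 | h1
    · exact h1
    · omega
  · rcases hh y with h1 | h1
    · exact h1
    · omega

namespace Tr

variable {U : Finset Pt} {c N : Hg}

theorem opn_iff (ok : Ok V I U m σ c N) {h : Hg} (hh : h ∈ Cfg V I) (x y : Pt) :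
    K.Opn (Rel V) U (K.ab (T U m σ h)) x y ↔ OpV V m h x y := by
  have h1 : ∀ z ∈ U, K.ab (T U m σ h) z ≤ 1 ↔ |h z - m| = 1 := by
    intro z hz
    have e : K.ab (T U m σ h) z = |h z - m| := by
      show |T U m σ h z| = |h z - m|
      rw [T_in hz, abs_sg ok.sg]
    rw [e]
    have := K.one_le_abs ((hh.1 z).sub_even ok.even)
    omega
  constructor
  · rintro ⟨hx, hy, ⟨hxy, hV⟩, hne⟩
    rw [h1 x hx, h1 y hy] at hne
    exact ⟨⟨hxy, hne⟩, hV⟩
  · intro hxy
    have hx := ok.nb x hxy.nb.1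
    have hy := ok.nb y hxy.nb.2
    refine ⟨hx, hy, ⟨hxy.1.1, hxy.2⟩, ?_⟩
    rw [h1 x hx, h1 y hy]
    exact hxy.1.2

theorem cn_iff (ok : Ok V I U m σ c N) {h : Hg} (hh : h ∈ Cfg V I) (x y : Pt) :
    K.Cn (Rel V) U (K.ab (T U m σ h)) x y ↔ ReflTransGen (OpV V m h) x y := by
  constructor
  · intro hxy
    induction hxy with
    | refl => exact ReflTransGen.refl
    | tail _ h1 ih => exact ih.tail ((opn_iff ok hh _ _).1 h1)
  · intro hxy
    induction hxy with
    | refl => exact ReflTransGen.refl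
    | tail _ h1 ih => exact ReflTransGen.tail ih ((opn_iff ok hh _ _).2 h1)

theorem nb_of_path {h : Hg} {x y : Pt} (hx : x ∈ R2.nb V) (hxy : ReflTransGen (OpV V m h) x y) :
    y ∈ R2.nb V := by
  induction hxy with
  | refl => exact hx
  | tail _ h1 _ => exact h1.nb.2

theorem cnP_iff (ok : Ok V I U m σ c N) {h : Hg} (hh : h ∈ Cfg V I) {z : Pt} (hz : z ∈ R2.nb V) :
    K.CnP (Rel V) U (E m σ N I).P (K.ab (T U m σ h)) z ↔ CnW V I m σ h z := by
  constructor
  · rintro ⟨p, -, hp, hzp⟩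
    exact ⟨p, hp, (cn_iff ok hh _ _).1 hzp⟩
  · rintro ⟨p, hp, hzp⟩
    exact ⟨p, ok.nb p (nb_of_path hz hzp), hp, (cn_iff ok hh _ _).2 hzp⟩

end Tr

/-- Representation of the mean. -/
theorem md_rep (h : Lv V I m σ) {z : Pt} (hz : z ∈ nb V) (Y : Hg → ℝ) :
    Ex (Cfg V I) (fun g => Y (md m g) * ((σ * (g z - m) : ℤ) : ℝ)) =
      Ex (Cfg V I) (fun g => Y (md m g) * (if CnW V I m σ g z then ((|g z - m| : ℤ) : ℝ) else 0)) := by
  obtain ⟨W, c, N, hZW, -, ok, -⟩ := h.cmp.exists_ok {z} (fun x hx => by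
    rw [Finset.mem_singleton] at hx; rw [hx]; exact hz)
  have fI := Cfg_finite h.dI
  have hzW : z ∈ W := hZW z (Finset.mem_singleton_self z)
  rw [Ex_eq_ev fI, Ex_eq_ev fI]
  unfold ev
  congr 1
  have s1 := Tr.sum_T ok fI (fun k => Y (Tr.ex W m c (K.ab k)) * (k z : ℝ))
  have s2 := Tr.sum_T ok fI (fun k => Y (Tr.ex W m c (K.ab k)) *
    (if K.CnP (Tr.Rel V) W (Tr.E m σ N I).P (K.ab k) z then ((|k z| : ℤ) : ℝ) else 0))
  have e1 : ∀ g ∈ fI.toFinset, Y (Tr.ex W m c (K.ab (Tr.T W m σ g))) * ((Tr.T W m σ g z : ℤ) : ℝ) =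
      Y (md m g) * ((σ * (g z - m) : ℤ) : ℝ) := by
    intro g hg
    rw [Set.Finite.mem_toFinset] at hg
    rw [Tr.ex_ab ok hg, Tr.T_in hzW]
  have e2 : ∀ g ∈ fI.toFinset, Y (Tr.ex W m c (K.ab (Tr.T W m σ g))) *
      (if K.CnP (Tr.Rel V) W (Tr.E m σ N I).P (K.ab (Tr.T W m σ g)) z then
        ((|Tr.T W m σ g z| : ℤ) : ℝ) else 0) =
      Y (md m g) * (if CnW V I m σ g z then ((|g z - m| : ℤ) : ℝ) else 0) := by
    intro g hg
    rw [Set.Finite.mem_toFinset] at hg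
    rw [Tr.ex_ab ok hg, Tr.T_in hzW, Tr.abs_sg ok.sg]
    simp only [Tr.cnP_iff ok hg hz]
  rw [← Finset.sum_congr rfl e1, ← Finset.sum_congr rfl e2, s1, s2]
  have key := K.sum_height (R := Tr.Rel V) (V := W) (E := Tr.E m σ N I) Tr.Rel_symm hzW
    (fun a => (if Tr.Al W m I a then 1 else 0) * Y (Tr.ex W m c a))
  simp only [Int.cast_abs]
  calc _ = _ := Finset.sum_congr rfl fun k _ => by ring
    _ = _ := key
    _ = _ := Finset.sum_congr rfl fun k _ => by ring

/-- Representation of the mean. -/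
theorem md_rep0 (h : Lv V I m σ) {z : Pt} (hz : z ∈ nb V) :
    Ex (Cfg V I) (fun g => ((σ * (g z - m) : ℤ) : ℝ)) =
      Ex (Cfg V I) (fun g => if CnW V I m σ g z then ((|g z - m| : ℤ) : ℝ) else 0) := by
  have := md_rep h hz fun _ => 1
  simpa only [one_mul] using this

/-- Representation of the mean under a conditioning on the modulus. -/
theorem md_rep_on (h : Lv V I m σ) {z : Pt} (hz : z ∈ nb V) (A : Set Hg) :
    Ex (Cfg V I ∩ {g | md m g ∈ A}) (fun g => ((σ * (g z - m) : ℤ) : ℝ)) =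
      Ex (Cfg V I ∩ {g | md m g ∈ A})
        (fun g => if CnW V I m σ g z then ((|g z - m| : ℤ) : ℝ) else 0) := by
  have fI := Cfg_finite h.dI
  have h1 := md_rep h hz (ind A)
  rw [Ex_inter_eq fI, Ex_inter_eq fI]
  rw [Ex_eq_ev fI, Ex_eq_ev fI] at h1
  unfold ev at h1
  congr 1
  have hcard : ((Finset.card fI.toFinset : ℕ) : ℝ) ≠ 0 := by
    have : 0 < Finset.card fI.toFinset := Finset.card_pos.2 ((Set.Finite.toFinset_nonempty fI).2 h.ne)
    exact_mod_cast this.ne'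
  have h2 := (div_left_inj' hcard).1 h1
  exact h2

/-- Zero mean if the site is never joined to a wired site, under a conditioning on the modulus. -/
theorem md_zero_on (h : Lv V I m σ) {z : Pt} (hz : z ∈ nb V) (A : Set Hg)
    (hA : ∀ g ∈ Cfg V I, md m g ∈ A → ¬ CnW V I m σ g z) :
    Ex (Cfg V I ∩ {g | md m g ∈ A}) (fun g => ((σ * (g z - m) : ℤ) : ℝ)) = 0 := by
  rw [md_rep_on h hz, Ex_congr (G := fun _ => 0) fun g hg => if_neg (hA g hg.1 hg.2), Ex_zero]

/-- The mean is nonnegative, under every conditioning on the modulus. -/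
theorem md_nonneg_on (h : Lv V I m σ) {z : Pt} (hz : z ∈ nb V) (A : Set Hg) :
    0 ≤ Ex (Cfg V I ∩ {g | md m g ∈ A}) (fun g => ((σ * (g z - m) : ℤ) : ℝ)) := by
  rw [md_rep_on h hz]
  refine Ex_nonneg fun g _ => ?_
  split_ifs
  · exact_mod_cast abs_nonneg _
  · exact le_rfl

/-- Given the modulus. -/
theorem md_fib (h : Lv V I m σ) {z : Pt} (hz : z ∈ nb V) {g : Hg} (hg : g ∈ Cfg V I) :
    Ex (Cfg V I ∩ {g' | md m g' = md m g}) (fun g' => ((σ * (g' z - m) : ℤ) : ℝ)) =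
      if CnW V I m σ g z then ((|g z - m| : ℤ) : ℝ) else 0 := by
  have key := md_rep_on h hz {md m g}
  simp only [Set.mem_singleton_iff] at key
  rw [key]
  have e : ∀ g' ∈ Cfg V I ∩ {g' | md m g' = md m g},
      (if CnW V I m σ g' z then ((|g' z - m| : ℤ) : ℝ) else 0) =
        if CnW V I m σ g z then ((|g z - m| : ℤ) : ℝ) else 0 := by
    intro g' hg'
    have e1 : ∀ x, |g' x - m| = |g x - m| := fun x => congrFun hg'.2 x
    have e2 : OpV V m g' = OpV V m g := by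
      funext x y
      unfold OpV OpL
      rw [e1 x, e1 y]
    have e3 : CnW V I m σ g' z = CnW V I m σ g z := by
      unfold CnW
      rw [e2]
    rw [e1 z]
    simp only [e3]
  have hne : (Cfg V I ∩ {g' | md m g' = md m g}).Nonempty := ⟨g, hg, rfl⟩
  rw [Ex_congr e]
  exact Ex_const ((Cfg_finite h.dI).inter_of_left _) hne _

end Vale.Agent.P153.R2
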